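import Vale.Agent.P167.N.QC.Nh

/-!
# P167, `0 < q < 1`: clusters which do not touch the frozen squares

`kf_exp`, `kf_tail`, `fresh_tail`, `fresh_exp`: the geometric tail of the number of the fresh crossing
clusters if the frozen squares form at most `m` islands (`Fz`).
-/

set_option autoImplicit false

namespace Vale.Agent.P167.N.QC

open Finset Filter Topology Relation Vale.Agent.P167 Vale.Agent.P167.FK Vale.Agent.P167.FKA
open Vale.Agent.P145.FB (PStep PConn)
open Vale.Agent.P167.H166 (cl bxx mem_bxx)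
open Vale.Agent.P167.H259 (f_markov)
open Vale.Agent.P167.H192.TA (Pw)
open Vale.Agent.P167.QC (KF kf kf_true ind_KF kf_sh mem_image_sh image_sub_bxx)

/-- Exponential moment of the number of the crossing clusters. -/
theorem kc_expI {Q : ℝ} (hQ : 0 < Q) (hm : F_markov) (hg : F_good) {m : ℕ}
    {x : ℤ × ℤ} {r R : ℤ} (hrR : r + 2 < R) {a y β : ℝ} (hy : 1 ≤ y) (hya : y * a < 1)
    (hβ : β * (1 - y * a) = y - 1)
    (hA : ∀ (D : Finset (ℤ × ℤ)) (η : Cfg), Good η → Isl m x (r + 1) R D →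
      Pr Q D η {ω | 1 ≤ kc x r R D ω} ≤ a) :
    ∀ (n : ℕ) (D : Finset (ℤ × ℤ)) (η : Cfg), D.card ≤ n → Good η →
      Isl m x (r + 1) R D → Ex Q D η (fun ω => y ^ kc x r R D ω) ≤
        1 + β * Pr Q D η {ω | 1 ≤ kc x r R D ω} := by
  classical
  have hβ0 : 0 ≤ β := by
    by_contra h
    push Not at h
    nlinarith
  intro n
  induction n with
  | zero =>
    intro D η hn _ _
    have hD : D = ∅ := Finset.card_eq_zero.1 (Nat.le_zero.1 hn)
    subst hD
    have h0 := kc_zero (x := x) (D := ∅) hrR (fun _ _ _ v hv => absurd hv (Finset.notMem_empty v))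
    simp only [h0, pow_zero]
    rw [Ex_const hQ]
    have := mul_nonneg hβ0 (Pr_nonneg (D := ∅) (η := η) hQ {ω | 1 ≤ kc x r R ∅ ω})
    simp only [h0] at *
    linarith
  | succ n ih =>
    intro D η hn hη hsep
    by_cases hex : ∀ s : ℤ × ℤ, Even (s.1 + s.2) → nm (s - x) ≤ r + 1 → ∀ v ∈ D, ¬ Cor v s
    · have h0 := kc_zero (x := x) (D := D) hrR hex
      have := mul_nonneg hβ0 (Pr_nonneg (D := D) (η := η) hQ {ω | 1 ≤ kc x r R D ω})
      simp only [h0, pow_zero] at *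
      rw [Ex_const hQ]
      linarith
    · push Not at hex
      obtain ⟨s, hse, hs, v0, hv0, hc0⟩ := hex
      set k : Cfg → Set (ℤ × ℤ) := fun ω => cl (Op D ω) s with hk
      have e1 : (1 : ℝ) = Ex Q D η (fun _ => 1) := (Ex_const hQ 1).symm
      rw [e1]
      unfold Pr
      rw [Ex_split (α := Set (ℤ × ℤ)) k (fun ω => y ^ kc x r R D ω),
        Ex_split (α := Set (ℤ × ℤ)) k (fun _ => (1 : ℝ)),
        Ex_split (α := Set (ℤ × ℤ)) k ({ω | 1 ≤ kc x r R D ω}.indicator 1), Finset.mul_sum,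
        ← Finset.sum_add_distrib]
      refine Finset.sum_le_sum fun K hK => ?_
      rw [Finset.mem_image] at hK
      obtain ⟨S0, hS0, hKS⟩ := hK
      have hsK : s ∈ K := by rw [← hKS]; exact ReflTransGen.refl
      set D' := rest D K with hD'
      have hsub : D' ⊆ D := by
        intro v hv
        exact (mem_rest.1 hv).1
      have hcard : D'.card ≤ n := by
        have hlt : D'.card < D.card := by
          refine Finset.card_lt_card ⟨hsub, fun h => ?_⟩
          exact (mem_rest.1 (h hv0)).2 s hsK hc0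
        omega
      set I : Cfg → ℝ := {ω | k ω = K}.indicator 1 with hI
      have hInd : Ind D' I := ind_cl K
      have hI0 : ∀ ω, 0 ≤ I ω := ind_nonneg _
      -- pointwise identities on the event
      have hkc : ∀ ω, k ω = K → kc x r R D ω = kc x r R D' ω + if Crs x R K then 1 else 0 := by
        intro ω hω
        have h1 := kc_rest hrR (D := D) (ω := ω) hse hs
        have h2 : cl (Op D ω) s = K := hω
        rw [h2] at h1
        exact h1
      have hih : ∀ S, S ⊆ D → k (cf D η S) = K →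
          Ex Q D' (cf D η S) (fun ω => y ^ kc x r R D' ω) ≤
            1 + β * Pr Q D' (cf D η S) {ω | 1 ≤ kc x r R D' ω} ∧
          Pr Q D' (cf D η S) {ω | 1 ≤ kc x r R D' ω} ≤ a := by
        intro S hS hkS
        have hgood := hg.1 D η S hη
        have hsep' : Isl m x (r + 1) R D' := by
          have h1 := isl_rest hsep (cf D η S) hse hs
          have h2 : cl (Op D (cf D η S)) s = K := hkS
          rw [h2] at h1
          exact h1
        exact ⟨ih D' _ hcard hgood hsep', hA D' _ hgood hsep'⟩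
      have hIz : ∀ ω, k ω ≠ K → I ω = 0 := fun ω h =>
        Set.indicator_of_notMem (show ω ∉ {ω | k ω = K} from h) _
      by_cases hcr : Crs x R K
      · have h1 : Ex Q D η (fun ω => I ω * y ^ kc x r R D ω) =
            Ex Q D η (fun ω => I ω * (y * y ^ kc x r R D' ω)) := by
          refine Ex_congr fun S _ => ?_
          by_cases h : k (cf D η S) = K
          · rw [hkc _ h, if_pos hcr, pow_succ, mul_comm (y ^ kc x r R D' (cf D η S))]
          · rw [hIz _ h, zero_mul, zero_mul]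
        have h2 : Ex Q D η (fun ω => I ω * {ω | 1 ≤ kc x r R D ω}.indicator 1 ω) =
            Ex Q D η (fun ω => I ω * 1) := by
          refine Ex_congr fun S _ => ?_
          by_cases h : k (cf D η S) = K
          · rw [Set.indicator_of_mem]
            · rfl
            · show 1 ≤ kc x r R D (cf D η S)
              rw [hkc _ h, if_pos hcr]
              omega
          · rw [hIz _ h, zero_mul, zero_mul]
        rw [h1, h2, markov hm hQ hsub hη hInd]
        rw [← Ex_mul_left, ← Ex_add]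
        refine Ex_mono hQ fun S hS => ?_
        by_cases h : k (cf D η S) = K
        · obtain ⟨h3, h4⟩ := hih S hS h
          have h5 : Ex Q D' (cf D η S) (fun ω => y * y ^ kc x r R D' ω) ≤ 1 + β := by
            rw [Ex_mul_left]
            have h6 := mul_le_mul_of_nonneg_left h3 (show 0 ≤ y by linarith)
            have h7 := mul_le_mul_of_nonneg_left h4 (mul_nonneg (show 0 ≤ y by linarith) hβ0)
            nlinarith
          have := mul_le_mul_of_nonneg_left h5 (hI0 (cf D η S))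
          linarith
        · rw [hIz _ h]
          simp
      · have h1 : Ex Q D η (fun ω => I ω * y ^ kc x r R D ω) =
            Ex Q D η (fun ω => I ω * y ^ kc x r R D' ω) := by
          refine Ex_congr fun S _ => ?_
          by_cases h : k (cf D η S) = K
          · rw [hkc _ h, if_neg hcr, add_zero]
          · rw [hIz _ h, zero_mul, zero_mul]
        have h2 : Ex Q D η (fun ω => I ω * {ω | 1 ≤ kc x r R D ω}.indicator 1 ω) =
            Ex Q D η (fun ω => I ω * {ω | 1 ≤ kc x r R D' ω}.indicator 1 ω) := by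
          refine Ex_congr fun S _ => ?_
          by_cases h : k (cf D η S) = K
          · congr 1
            have h6 := hkc _ h
            rw [if_neg hcr, add_zero] at h6
            by_cases h7 : 1 ≤ kc x r R D' (cf D η S)
            · rw [Set.indicator_of_mem (show cf D η S ∈ {ω | 1 ≤ kc x r R D' ω} from h7),
                Set.indicator_of_mem]
              show 1 ≤ kc x r R D (cf D η S)
              omega
            · rw [Set.indicator_of_notMem (show cf D η S ∉ {ω | 1 ≤ kc x r R D' ω} from h7),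
                Set.indicator_of_notMem]
              show ¬ 1 ≤ kc x r R D (cf D η S)
              omega
          · rw [hIz _ h, zero_mul, zero_mul]
        have h5 := markov hm hQ hsub hη hInd (F := fun ω => y ^ kc x r R D' ω)
        have h6 := markov hm hQ hsub hη hInd (F := {ω | 1 ≤ kc x r R D' ω}.indicator 1)
        rw [h1, h2, h5, h6]
        rw [← Ex_mul_left, ← Ex_add]
        refine Ex_mono hQ fun S hS => ?_
        by_cases h : k (cf D η S) = K
        · obtain ⟨h3, h4⟩ := hih S hS h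
          have := mul_le_mul_of_nonneg_left h3 (hI0 (cf D η S))
          refine this.trans (le_of_eq ?_)
          show I (cf D η S) * (1 + β * Pr Q D' (cf D η S) {ω | 1 ≤ kc x r R D' ω}) =
            I (cf D η S) * 1 + β * (I (cf D η S) * Pr Q D' (cf D η S) {ω | 1 ≤ kc x r R D' ω})
          ring
        · rw [hIz _ h]
          simp


/-- One crossing cluster in a domain with at most `m` islands. -/
theorem kc_le {Q : ℝ} (K : Kit Q) (hU : UTc Q) : ∃ α : ℝ, 0 < α ∧ ∀ m : ℕ, ∃ C : ℝ, 0 < C ∧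
    ∀ (x : ℤ × ℤ) (r R : ℤ), 1 ≤ r → r + 2 < R → ∀ (D : Finset (ℤ × ℤ)) (η : Cfg), Good η →
      Isl m x (r + 1) R D → Pr Q D η {ω | 1 ≤ kc x r R D ω} ≤ C * ((r : ℝ) / R) ^ α := by
  obtain ⟨α, hα, h⟩ := ut_isl K hU
  refine ⟨α, hα, fun m => ?_⟩
  obtain ⟨C, hC, h⟩ := h m
  refine ⟨C * 2 ^ α, by positivity, fun x r R hr hrR D η hη hI => ?_⟩
  have h1 := h x (r + 1) R (by omega) (by omega) D hI
  have h2 : Pr Q D η {ω | 1 ≤ kc x r R D ω} ≤ Pr Q D η (Xr x (r + 1) R (D ∩ An x (r + 1) R)) := by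
    refine Pr_mono K.pos fun ω hω => ?_
    have h3 : 1 ≤ kc x r R D ω := hω
    rw [kc_pos] at h3
    obtain ⟨s, t, g1, g2, g3, g4⟩ := h3
    exact Xr_sub le_rfl le_rfl ω ⟨s, t, g1, by omega, g3, g4⟩
  refine (h2.trans (Xr_le K.pos Finset.inter_subset_left h1 hη)).trans ?_
  have hr' : (1 : ℝ) ≤ r := by exact_mod_cast hr
  have hR' : (0 : ℝ) < R := by exact_mod_cast (by omega : 0 < R)
  rw [mul_assoc, ← Real.mul_rpow (by norm_num) (div_nonneg (by linarith) hR'.le)]
  refine mul_le_mul_of_nonneg_left (Real.rpow_le_rpow ?_ ?_ hα.le) (by linarith)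
  · push_cast
    exact div_nonneg (by linarith) hR'.le
  · push_cast
    rw [← mul_div_assoc]
    exact div_le_div_of_nonneg_right (by linarith) hR'.le

/-- The bound of the probability of one crossing cluster in all domains with at most `m` islands. -/
def KcA (Q : ℝ) (m : ℕ) (x : ℤ × ℤ) (r R : ℤ) (a : ℝ) : Prop :=
  ∀ (D : Finset (ℤ × ℤ)) (η : Cfg), Good η → Isl m x (r + 1) R D →
    Pr Q D η {ω | 1 ≤ kc x r R D ω} ≤ a

/-- **Exponential moment of the number of the fresh crossing clusters.** -/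
theorem kf_exp {Q : ℝ} (hQ0 : 0 < Q) {m : ℕ} {x : ℤ × ℤ} {r R : ℤ} (hrR : r + 2 < R) {a y β : ℝ}
    (hy : 1 ≤ y) (hya : y * a < 1) (hβ : β * (1 - y * a) = y - 1)
    (hA : KcA Q m x r R a) {D : Finset (ℤ × ℤ)} {η : Cfg} (hη : Good η) (hF : Fz m x R D η) :
    Ex Q D η (fun ω => y ^ kf x r R D ω true 0) ≤ 1 + β * a := by
  classical
  have hβ0 : 0 ≤ β := by
    by_contra h
    push Not at h
    nlinarith
  set k : Cfg → Set (ℤ × ℤ) := fun ω => KF (bxx x R) D ω true 0 with hk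
  have e1 : (1 : ℝ) + β * a = Ex Q D η (fun _ => 1 + β * a) := (Ex_const hQ0 _).symm
  rw [e1, Ex_split (α := Set (ℤ × ℤ)) k (fun ω => y ^ kf x r R D ω true 0),
    Ex_split (α := Set (ℤ × ℤ)) k (fun _ => 1 + β * a)]
  refine Finset.sum_le_sum fun K _ => ?_
  set D' := rest D K with hD'
  have hsub : D' ⊆ D := fun v hv => (mem_rest.1 hv).1
  set I : Cfg → ℝ := {ω | k ω = K}.indicator 1 with hI
  have hInd : Ind D' I := ind_KF K
  have hI0 : ∀ ω, 0 ≤ I ω := ind_nonneg _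
  have hIz : ∀ ω, k ω ≠ K → I ω = 0 := fun ω h =>
    Set.indicator_of_notMem (show ω ∉ {ω | k ω = K} from h) _
  have h1 : Ex Q D η (fun ω => I ω * y ^ kf x r R D ω true 0) =
      Ex Q D η (fun ω => I ω * y ^ kc x r R D' ω) := by
    refine Ex_congr fun S _ => ?_
    by_cases h : k (cf D η S) = K
    · have h2 : KF (bxx x R) D (cf D η S) true 0 = K := h
      rw [kf_true, h2]
    · rw [hIz _ h, zero_mul, zero_mul]
  rw [h1, markov f_markov hQ0 hsub hη hInd]
  refine Ex_mono hQ0 fun S hS => ?_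
  by_cases h : k (cf D η S) = K
  · refine mul_le_mul_of_nonneg_left ?_ (hI0 _)
    have hgood := f_good.1 D η S hη
    have hsep' : Isl m x (r + 1) R D' := by
      have h2 := isl_KF (r := r + 1) hF (ω := cf D η S) (fun v hv => cf_out hv)
      have h3 : KF (bxx x R) D (cf D η S) true 0 = K := h
      rw [h3] at h2
      exact h2
    have h4 := kc_expI hQ0 f_markov f_good hrR hy hya hβ hA _ D' (cf D η S) le_rfl hgood hsep'
    have h5 := mul_le_mul_of_nonneg_left (hA D' _ hgood hsep') hβ0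
    linarith
  · rw [hIz _ h]
    simp

theorem pow_tail {Q : ℝ} (hQ0 : 0 < Q) {a : ℝ} (ha : 0 < a) (ha2 : 2 * a ≤ 1)
    {D : Finset (ℤ × ℤ)} {η : Cfg} {k : Cfg → ℕ}
    (h : Ex Q D η (fun ω => (1 / (2 * a)) ^ k ω) ≤ 2) (j : ℕ) :
    Pr Q D η {ω | j ≤ k ω} ≤ 2 * (2 * a) ^ j := by
  have hy : 1 ≤ 1 / (2 * a) := by rw [le_div_iff₀ (by positivity)]; linarith
  have h3 : Pr Q D η {ω | j ≤ k ω} ≤ Ex Q D η (fun ω => (2 * a) ^ j * (1 / (2 * a)) ^ k ω) := by
    refine Ex_mono hQ0 fun S _ => ?_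
    by_cases h4 : j ≤ k (cf D η S)
    · rw [Set.indicator_of_mem (show cf D η S ∈ {ω | j ≤ k ω} from h4)]
      have h5 : (1 / (2 * a)) ^ j ≤ (1 / (2 * a)) ^ k (cf D η S) := pow_le_pow_right₀ hy h4
      have h6 : (2 * a) ^ j * (1 / (2 * a)) ^ j = 1 := by
        rw [← mul_pow, mul_one_div_cancel (by positivity), one_pow]
      rw [Pi.one_apply]
      calc (1 : ℝ) = (2 * a) ^ j * (1 / (2 * a)) ^ j := h6.symm
        _ ≤ _ := mul_le_mul_of_nonneg_left h5 (by positivity)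
    · rw [Set.indicator_of_notMem (show cf D η S ∉ {ω | j ≤ k ω} from h4)]
      positivity
  rw [Ex_mul_left] at h3
  refine h3.trans ?_
  rw [mul_comm (2 : ℝ) ((2 * a) ^ j)]
  exact mul_le_mul_of_nonneg_left h (by positivity)

/-- Tail of the number of the fresh crossing clusters. -/
theorem kf_tail {Q : ℝ} (hQ0 : 0 < Q) {m : ℕ} {x : ℤ × ℤ} {r R : ℤ} (hrR : r + 2 < R) {a : ℝ}
    (ha : 0 < a) (ha2 : 2 * a ≤ 1) (hA : KcA Q m x r R a) {D : Finset (ℤ × ℤ)} {η : Cfg}
    (hη : Good η) (hF : Fz m x R D η) (j : ℕ) :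
    Pr Q D η {ω | j ≤ kf x r R D ω true 0} ≤ 2 * (2 * a) ^ j := by
  have hy : 1 ≤ 1 / (2 * a) := by rw [le_div_iff₀ (by positivity)]; linarith
  have hya : 1 / (2 * a) * a = 1 / 2 := by field_simp
  have h := kf_exp hQ0 hrR (a := a) (y := 1 / (2 * a)) (β := 2 * (1 / (2 * a) - 1)) hy
    (by rw [hya]; norm_num) (by rw [hya]; ring) hA hη hF
  have h2 : 1 + 2 * (1 / (2 * a) - 1) * a ≤ 2 := by
    have : 2 * (1 / (2 * a) - 1) * a = 2 * (1 / (2 * a) * a) - 2 * a := by ring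
    rw [this, hya]
    linarith
  exact pow_tail hQ0 ha ha2 (h.trans h2) j

/-! ### Duality -/

theorem lv_sh {x v : ℤ × ℤ} : lv (FKA.sh x) (FKA.sh v) = lv x v := by
  simp only [lv, nm, FKA.sh, Prod.fst_sub, Prod.snd_sub, add_sub_add_right_eq_sub]

theorem du_sh_true {η : Cfg} {v : ℤ × ℤ} : du η (FKA.sh v) = true ↔ η v = false := by
  rw [QC.du_true, shi_sh]

theorem du_sh_false {η : Cfg} {v : ℤ × ℤ} : du η (FKA.sh v) = false ↔ η v = true := by
  have := du_sh_true (η := η) (v := v)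
  cases h1 : du η (FKA.sh v) <;> cases h2 : η v <;> simp_all

theorem Wa.sh {η : Cfg} {a b : ℤ × ℤ} (h : Wa η a b) : Wa (du η) (FKA.sh a) (FKA.sh b) := by
  obtain ⟨u, h1, h2, h3⟩ := h
  refine ⟨FKA.sh u, QC.cor_sh.2 h1, QC.cor_sh.2 h2, ?_⟩
  rcases h3 with ⟨h3, h4⟩ | ⟨h3, h4⟩
  · right
    refine ⟨?_, ?_⟩
    · simp only [FKA.sh]
      omega
    · rw [du_sh_true, du_sh_true]
      exact h4
  · left
    refine ⟨?_, ?_⟩
    · simp only [FKA.sh]
      omega
    · rw [du_sh_false, du_sh_false]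
      exact h4

theorem Fz.sh {m : ℕ} {x : ℤ × ℤ} {R : ℤ} {D : Finset (ℤ × ℤ)} {η : Cfg} (h : Fz m x R D η) :
    Fz m (FKA.sh x) R (D.image FKA.sh) (du η) := by
  obtain ⟨P, hP, h⟩ := h
  have hw : ∀ {v w : ℤ × ℤ}, Wc D η v w → Wc (D.image FKA.sh) (du η) (FKA.sh v) (FKA.sh w) := by
    intro v w hvw
    have hn : ∀ {v : ℤ × ℤ}, v ∉ D → FKA.sh v ∉ D.image FKA.sh := fun hv hv' => hv (by
      rw [mem_image_sh, shi_sh] at hv'
      exact hv')
    induction hvw with
    | refl => exact ReflTransGen.refl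
    | tail _ h1 ih => exact ih.tail ⟨hn h1.1, hn h1.2.1, h1.2.2.sh⟩
  refine ⟨P.image FKA.sh, Finset.card_image_le.trans hP, fun v hv hvR => ?_⟩
  obtain ⟨w, h1, h2⟩ := h (shi v) (fun hv' => hv (mem_image_sh.2 hv')) (by
    rw [← lv_sh, sh_shi]
    exact hvR)
  refine ⟨FKA.sh w, ?_, ?_⟩
  · rcases h1 with h1 | h1
    · exact Or.inl (by rw [lv_sh]; exact h1)
    · exact Or.inr (Finset.mem_image_of_mem _ h1)
  · have := hw h2
    rwa [sh_shi] at this

/-- Exponential moment of the number of the fresh crossing dual clusters. -/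
theorem kf_exp' {Q : ℝ} (hQ0 : 0 < Q) {m : ℕ} {x : ℤ × ℤ} {r R : ℤ} (hrR : r + 2 < R) {a y β : ℝ}
    (hy : 1 ≤ y) (hya : y * a < 1) (hβ : β * (1 - y * a) = y - 1)
    (hA : KcA Q m (FKA.sh x) r R a) {D : Finset (ℤ × ℤ)} {η : Cfg} (hη : Good η)
    (hF : Fz m x R D η) : Ex Q D η (fun ω => y ^ kf x r R D ω false 1) ≤ 1 + β * a := by
  have h := kf_exp hQ0 hrR hy hya hβ hA (f_dual.1 η hη) hF.sh
  have h2 := f_dual.2 Q D η (fun ω => y ^ kf (FKA.sh x) r R (D.image FKA.sh) ω true 0) hQ0 hη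
  refine le_trans (le_of_eq ?_) h
  refine Eq.trans ?_ h2.symm
  refine Ex_congr fun S _ => ?_
  rw [kf_sh (x := x) (r := r) (R := R) (D := D) (ω := cf D η S)]

/-- Tail of the number of the fresh crossing dual clusters. -/
theorem kf_tail' {Q : ℝ} (hQ0 : 0 < Q) {m : ℕ} {x : ℤ × ℤ} {r R : ℤ} (hrR : r + 2 < R) {a : ℝ}
    (ha : 0 < a) (ha2 : 2 * a ≤ 1) (hA : KcA Q m (FKA.sh x) r R a) {D : Finset (ℤ × ℤ)} {η : Cfg}
    (hη : Good η) (hF : Fz m x R D η) (j : ℕ) :
    Pr Q D η {ω | j ≤ kf x r R D ω false 1} ≤ 2 * (2 * a) ^ j := by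
  have hy : 1 ≤ 1 / (2 * a) := by rw [le_div_iff₀ (by positivity)]; linarith
  have hya : 1 / (2 * a) * a = 1 / 2 := by field_simp
  have h := kf_exp' hQ0 hrR (a := a) (y := 1 / (2 * a)) (β := 2 * (1 / (2 * a) - 1)) hy
    (by rw [hya]; norm_num) (by rw [hya]; ring) hA hη hF
  have h2 : 1 + 2 * (1 / (2 * a) - 1) * a ≤ 2 := by
    have : 2 * (1 / (2 * a) - 1) * a = 2 * (1 / (2 * a) * a) - 2 * a := by ring
    rw [this, hya]
    linarith
  exact pow_tail hQ0 ha ha2 (h.trans h2) j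

/-- The condition on the frozen squares for the part of the domain in the box. -/
theorem Fz.inter {m : ℕ} {x : ℤ × ℤ} {R : ℤ} {D : Finset (ℤ × ℤ)} {η ζ : Cfg} (h : Fz m x R D η)
    (hζ : ∀ v, v ∉ D → ζ v = η v) : Fz m x R (D ∩ bxx x R) ζ := by
  obtain ⟨P, hP, h⟩ := h
  refine ⟨P, hP, fun v hv hvR => ?_⟩
  have hvD : v ∉ D := fun h' => hv (Finset.mem_inter.2 ⟨h', mem_bxx.2 hvR⟩)
  obtain ⟨w, h1, h2⟩ := h v hvD hvR
  refine ⟨w, h1, ?_⟩
  have hn : ∀ {v : ℤ × ℤ}, v ∉ D → v ∉ D ∩ bxx x R := fun hv hv' => hv (Finset.mem_inter.1 hv').1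
  clear h1 hvR hv hvD h
  induction h2 with
  | refl => exact ReflTransGen.refl
  | @tail a b _ hab ih =>
    obtain ⟨h3, h4, u, h5, h6, h7⟩ := hab
    refine ih.tail ⟨hn h3, hn h4, u, h5, h6, ?_⟩
    rw [hζ a h3, hζ b h4]
    exact h7

/-- **Master lemma.** The number of the fresh crossing clusters of each colour has a geometric tail,
whose ratio is small if the annulus is thick, uniformly in the domain and in the boundary
condition, if the frozen squares of the box form at most `m` islands. -/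
theorem fresh_tail {Q : ℝ} (K : Kit Q) (hU : UTc Q) : ∃ α : ℝ, 0 < α ∧ ∀ m : ℕ, ∃ C : ℝ, 0 < C ∧
    ∀ (x : ℤ × ℤ) (r R : ℤ), 1 ≤ r → r + 2 < R → C * ((r : ℝ) / R) ^ α ≤ 1 →
    ∀ (D : Finset (ℤ × ℤ)) (η : Cfg), Good η → Fz m x R D η → ∀ j : ℕ,
      Pr Q D η {ω | j ≤ kf x r R (D ∩ bxx x R) ω true 0} ≤ 2 * (C * ((r : ℝ) / R) ^ α) ^ j ∧
      Pr Q D η {ω | j ≤ kf x r R (D ∩ bxx x R) ω false 1} ≤ 2 * (C * ((r : ℝ) / R) ^ α) ^ j := by
  have hQ0 := K.pos
  obtain ⟨α, hα, hw⟩ := kc_le K hU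
  refine ⟨α, hα, fun m => ?_⟩
  obtain ⟨C, hC, hw⟩ := hw m
  refine ⟨2 * C, by positivity, fun x r R hr hrR hsm D η hη hF j => ?_⟩
  have hr' : (1 : ℝ) ≤ r := by exact_mod_cast hr
  have hR' : (r : ℝ) + 3 ≤ R := by exact_mod_cast (by omega : r + 3 ≤ R)
  have ha : 0 < C * ((r : ℝ) / R) ^ α := by
    have : 0 < (r : ℝ) / R := div_pos (by linarith) (by linarith)
    positivity
  rw [mul_assoc] at hsm ⊢
  have key : ∀ A : Set Cfg, (∀ S ⊆ D, Pr Q (D ∩ bxx x R) (cf D η S) A ≤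
      2 * (2 * (C * ((r : ℝ) / R) ^ α)) ^ j) →
      Pr Q D η A ≤ 2 * (2 * (C * ((r : ℝ) / R) ^ α)) ^ j := by
    intro A hA
    unfold Pr
    rw [f_markov Q (D ∩ bxx x R) D η _ hQ0 Finset.inter_subset_left hη,
      ← Ex_const (Q := Q) (D := D) (η := η) hQ0 (2 * (2 * (C * ((r : ℝ) / R) ^ α)) ^ j)]
    exact Ex_mono hQ0 fun S hS => hA S hS
  exact ⟨key _ fun S _ => kf_tail hQ0 hrR ha hsm (fun D η h1 h2 => hw x r R hr hrR D η h1 h2)
      (f_good.1 D η S hη) (hF.inter fun v hv => cf_out hv) j,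
    key _ fun S _ => kf_tail' hQ0 hrR ha hsm (fun D η h1 h2 => hw (FKA.sh x) r R hr hrR D η h1 h2)
      (f_good.1 D η S hη) (hF.inter fun v hv => cf_out hv) j⟩

/-- **Exponential moments of the number of the fresh crossing clusters** of both colours,
relatively to a factor which does not depend on the box. -/
theorem fresh_exp {Q : ℝ} (K : Kit Q) (hU : UTc Q) {y : ℝ} (hy : 1 ≤ y) (m : ℕ) : ∃ κ : ℤ, 4 ≤ κ ∧
    ∀ (x : ℤ × ℤ) (r R : ℤ), 1 ≤ r → κ * r ≤ R → ∀ (D : Finset (ℤ × ℤ)) (η : Cfg), Good η →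
    Fz m x R D η → ∀ G : Cfg → ℝ, (∀ ω, 0 ≤ G ω) → Ind (D ∩ bxx x R) G →
      Ex Q D η (fun ω => G ω * y ^ (kf x r R (D ∩ bxx x R) ω true 0 +
        kf x r R (D ∩ bxx x R) ω false 1)) ≤ 2 * Ex Q D η G := by
  have hQ0 := K.pos
  obtain ⟨α, hα, hw⟩ := kc_le K hU
  obtain ⟨C, hC, hw⟩ := hw m
  -- the threshold
  set a : ℝ := 1 / (2 * y ^ 2) with ha
  have hy0 : 0 < y := by linarith
  have ha0 : 0 < a := by positivity
  have hlim : Tendsto (fun t : ℝ => C * t⁻¹ ^ α) atTop (𝓝 0) := by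
    have h1 : Tendsto (fun t : ℝ => t⁻¹ ^ α) atTop (𝓝 (0 ^ α)) :=
      (Real.continuousAt_rpow_const 0 α (Or.inr hα.le)).tendsto.comp tendsto_inv_atTop_zero
    rw [Real.zero_rpow hα.ne'] at h1
    simpa using h1.const_mul C
  obtain ⟨t0, ht0⟩ := Filter.eventually_atTop.1 (hlim.eventually_le_const ha0)
  refine ⟨max 4 ⌈t0⌉, le_max_left _ _, fun x r R hr hR D η hη hF G hG0 hG => ?_⟩
  have hr' : (1 : ℝ) ≤ r := by exact_mod_cast hr
  have h4 : 4 * r ≤ R := le_trans (mul_le_mul_of_nonneg_right (le_max_left _ _) (by omega)) hR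
  have hrR : r + 2 < R := by omega
  have hsm : ∀ x : ℤ × ℤ, KcA Q m x r R a := by
    intro x D η h1 h2
    refine (hw x r R hr hrR D η h1 h2).trans ?_
    have h5 : t0 ≤ (R : ℝ) / r := by
      rw [le_div_iff₀ (by linarith)]
      have h6 : (⌈t0⌉ : ℤ) * r ≤ R :=
        le_trans (mul_le_mul_of_nonneg_right (le_max_right _ _) (by omega)) hR
      have h7 : ((⌈t0⌉ : ℤ) : ℝ) * r ≤ R := by exact_mod_cast h6
      exact (mul_le_mul_of_nonneg_right (Int.le_ceil t0) (by linarith)).trans h7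
    have := ht0 _ h5
    rwa [inv_div] at this
  have hYa : y ^ 2 * a = 1 / 2 := by
    rw [ha]
    field_simp
  have hβa : 2 * (y ^ 2 - 1) * a ≤ 1 := by nlinarith
  rw [markov f_markov hQ0 Finset.inter_subset_left hη hG, ← Ex_mul_left]
  refine Ex_mono hQ0 fun S _ => ?_
  rw [mul_comm 2 (G (cf D η S))]
  refine mul_le_mul_of_nonneg_left ?_ (hG0 _)
  have hζ := f_good.1 D η S hη
  have hFS : Fz m x R (D ∩ bxx x R) (cf D η S) := hF.inter fun v hv => cf_out hv
  set ζ := cf D η S with hζe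
  have m1 := kf_exp hQ0 hrR (a := a) (y := y ^ 2) (β := 2 * (y ^ 2 - 1)) (by nlinarith)
    (by rw [hYa]; norm_num) (by rw [hYa]; ring) (hsm x) hζ hFS
  have m2 := kf_exp' hQ0 hrR (a := a) (y := y ^ 2) (β := 2 * (y ^ 2 - 1)) (by nlinarith)
    (by rw [hYa]; norm_num) (by rw [hYa]; ring) (hsm (FKA.sh x)) hζ hFS
  have m3 : Ex Q (D ∩ bxx x R) ζ (fun ω => y ^ (kf x r R (D ∩ bxx x R) ω true 0 +
      kf x r R (D ∩ bxx x R) ω false 1)) ≤
      Ex Q (D ∩ bxx x R) ζ (fun ω => (1 / 2) * ((y ^ 2) ^ kf x r R (D ∩ bxx x R) ω true 0 +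
        (y ^ 2) ^ kf x r R (D ∩ bxx x R) ω false 1)) := by
    refine Ex_mono hQ0 fun S _ => ?_
    rw [pow_add, ← pow_mul, ← pow_mul, mul_comm 2, mul_comm 2, pow_mul, pow_mul]
    nlinarith [sq_nonneg (y ^ kf x r R (D ∩ bxx x R) (cf (D ∩ bxx x R) ζ S) true 0 -
      y ^ kf x r R (D ∩ bxx x R) (cf (D ∩ bxx x R) ζ S) false 1)]
  rw [Ex_mul_left, Ex_add] at m3
  linarith

end Vale.Agent.P167.N.QC
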