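import Vale.Agent.P167.H564.Tr
import Vale.Agent.P167.N.Kit
import Vale.Agent.P167.H24.ChM
import Vale.Agent.P167.H366.TAk
import Vale.Agent.P167.N.BAR.Fin

/-!
# P167, `0 < q < 1`: one arm in a rough set of squares of a ring with connected complement
-/

set_option autoImplicit false

namespace Vale.Agent.P167.N.QC

open Vale.Agent.P167 Vale.Agent.P167.FK

variable {Q : ℝ}

/-- Channels in strips. -/
theorem ch (K : Kit Q) : H24.CH Q := H24.ch K.pos (H366.ta_lt K.pos K.lt)

/-- Both colours, one arm in a rough set of squares of a ring with connected complement. -/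
theorem utg (K : Kit Q) : H564.UTg Q :=
  H564.utg_of K.pos (H564.cho_all K.pos (ch K)) (BAR.bar K)

/-- **One arm in a rough set of squares of a ring with connected complement.** -/
theorem ut (K : Kit Q) : UTc Q := H564.utc_of K.pos (utg K)

end Vale.Agent.P167.N.QC
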