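import Vale.Agent.P167.N.QC.Sep
import Vale.Agent.P167.QC.Ent
import Vale.Agent.P167.N.QC.Ut
import Vale.Agent.P167.QC.Ent

/-! generated from Vale.Agent.P167.QC.Ent (q < 1 port) -/

set_option autoImplicit false

namespace Vale.Agent.P167.N.QC

open Vale.Agent.P167.QC

open Finset Filter Topology

open Vale.Agent.P145.FB (PStep PConn)

open Vale.Agent.P167.FK Vale.Agent.P167.FKA

open Vale.Agent.P167.H166

open Vale.Agent.P167.H161 (Conn PotX exists_PotX mem_Bq_of_nm card_le_labels)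

open Vale.Agent.P167.H259 (f_markov f_fkg f_comp f_comp2)

open Relation

/-- **Exponential moments of the number of the strands** of a box which visit a small box. -/
theorem ent_exp {Q : ℝ} (hQ : Kit Q) {y : ℝ} (hy : 1 ≤ y) (m : ℕ) : ∃ κ : ℤ, 4 ≤ κ ∧
    ∀ (z : ℤ × ℤ) (r R' R : ℤ), 1 ≤ r → κ * r ≤ R' → R' < R → ∀ (D : Finset (ℤ × ℤ)) (η : Cfg),
    Good η → ∀ P : Finset (ℤ × ℤ),
    (∀ S ⊆ D, ∀ v, v ∉ D → nm (v - z) ≤ R' →
      ∃ q ∈ P, Conn z R (cf D η S) (H161.cor (cf D η S v) v) q) → Fz m z R' D η →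
    ∀ G : Cfg → ℝ, (∀ ω, 0 ≤ G ω) → Ind (D ∩ bxx z R') G →
      Ex Q D η (fun ω => G ω * y ^ (Ent z r R ω).ncard) ≤ 2 * y ^ P.card * Ex Q D η G := by
  have hQ0 : 0 < Q := hQ.pos
  obtain ⟨κ, hκ, hE⟩ := fresh_exp hQ (ut hQ) hy m
  refine ⟨κ, hκ, fun z r R' R hr hκR hR D η hη P hP hF G hG0 hG => ?_⟩
  have hrR : r < R' := by nlinarith
  have h1 := hE z r R' hr hκR D η hη hF G hG0 hG
  have h2 : Ex Q D η (fun ω => G ω * y ^ (Ent z r R ω).ncard) ≤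
      Ex Q D η (fun ω => y ^ P.card * (G ω * y ^ (kf z r R' (D ∩ bxx z R') ω true 0 +
        kf z r R' (D ∩ bxx z R') ω false 1))) := by
    refine Ex_mono hQ0 fun S hS => ?_
    have h3 := ent_le (r := r) hR hrR P (ω := cf D η S) (D := D) (hP S hS)
    have h4 := pow_le_pow_right₀ hy h3
    rw [pow_add] at h4
    calc G (cf D η S) * y ^ (Ent z r R (cf D η S)).ncard
        ≤ G (cf D η S) * (y ^ (kf z r R' (D ∩ bxx z R') (cf D η S) true 0 +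
          kf z r R' (D ∩ bxx z R') (cf D η S) false 1) * y ^ P.card) :=
          mul_le_mul_of_nonneg_left h4 (hG0 _)
      _ = _ := by ring
  rw [Ex_mul_left] at h2
  have hyP : 0 ≤ y ^ P.card := pow_nonneg (by linarith) _
  calc _ ≤ _ := h2
    _ ≤ y ^ P.card * (2 * Ex Q D η G) := mul_le_mul_of_nonneg_left h1 hyP
    _ = _ := by ring

/-- **Second moment of the number of the strands.** -/
theorem ent_two {Q : ℝ} (hQ : Kit Q) (_h : RSW Q) : ∃ κ : ℤ, 4 ≤ κ ∧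
    ∀ (z : ℤ × ℤ) (r R' R : ℤ), 1 ≤ r → κ * r ≤ R' → R' < R → ∀ (D : Finset (ℤ × ℤ)) (η : Cfg),
    Good η → ∀ P : Finset (ℤ × ℤ),
    (∀ S ⊆ D, ∀ v, v ∉ D → nm (v - z) ≤ R' →
      ∃ q ∈ P, Conn z R (cf D η S) (H161.cor (cf D η S v) v) q) → Fz 2 z R' D η →
    ∀ G : Cfg → ℝ, (∀ ω, 0 ≤ G ω) → Ind (D ∩ bxx z R') G →
      Ex Q D η (fun ω => G ω * ((Ent z r R ω).ncard : ℝ) ^ 2) ≤ 4 * 2 ^ P.card * Ex Q D η G := by
  have hQ0 : 0 < Q := hQ.pos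
  obtain ⟨κ, hκ, hE⟩ := ent_exp hQ (y := 2) (by norm_num) 2
  refine ⟨κ, hκ, fun z r R' R hr hκR hR D η hη P hP hF G hG0 hG => ?_⟩
  have h1 := hE z r R' R hr hκR hR D η hη P hP hF G hG0 hG
  have h2 : Ex Q D η (fun ω => G ω * ((Ent z r R ω).ncard : ℝ) ^ 2) ≤
      Ex Q D η (fun ω => 2 * (G ω * 2 ^ (Ent z r R ω).ncard)) := by
    refine Ex_mono hQ0 fun S _ => ?_
    have := mul_le_mul_of_nonneg_left (sq_le_two_pow (Ent z r R (cf D η S)).ncard)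
      (hG0 (cf D η S))
    linarith
  rw [Ex_mul_left] at h2
  linarith

end Vale.Agent.P167.N.QC
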