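import Vale.Agent.P167.N.QC.FzDq
import Vale.Agent.P167.H174.CT.Thk2
import Vale.Agent.P167.H174.CT.FrzG

/-!
# P167, `0 < q < 1`: the frozen squares near a box form few islands

`fz_thk`: the thick configuration of a polygon; `fz_con`, `fz_oneC`: the frozen squares of the box are
joined to few sites; `fz_bulk`.
-/

set_option autoImplicit false

namespace Vale.Agent.P167.N.QC

open Finset Relation Vale.Agent.P167 Vale.Agent.P167.FK Vale.Agent.P167.FKA
open Vale.Agent.P145.FB (PStep PConn)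
open Vale.Agent.P167.H166 (cl bxx mem_bxx mem_Bq)
open Vale.Agent.P167.H192.TA (Pw)
open Vale.Agent.P167.E6 (IsPolygon Encloses dir face edges)
open Vale.Agent.P167.E2 (mem_edges)
open Vale.Agent.P167.H718 (Dq etaQ wE mem_Dq' mem_wE)
open Vale.Agent.P167.QC (exists_form fin4_back odd_corner)
open Vale.Agent.P167.H161 (Conn)
open Vale.Agent.P167.H174.CT (thk NearC thk_false etaQ_true cor_near cor_near' nm_bq bq_nm)

variable {n : ℕ} {p : ZMod n → ℤ × ℤ} {S : Finset (ℤ × ℤ)} {k : ℕ}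

/-! ### The thick configuration -/

theorem wc_adj {D : Finset (ℤ × ℤ)} {η : Cfg} {a b : ℤ × ℤ} (ha : a ∉ D) (hb : b ∉ D)
    (h : H318.Adj a b) (hη : η a = true) : Wc D η a b := by
  obtain ⟨s, h1, h2, h3⟩ := H174.CT.adj_cor h true
  exact ReflTransGen.single ⟨ha, hb, s, h1, h2, Or.inr ⟨h3, Or.inl hη⟩⟩

/-- The open frozen squares around a site are joined. -/
theorem around_open {D : Finset (ℤ × ℤ)} {η : Cfg} {u a b : ℤ × ℤ}
    (h : ∀ v, Cor v u → v ∉ D ∧ η v = true) (ha : Cor a u) (hb : Cor b u) : Wc D η a b := by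
  have hU : ∀ p q : ℤ, (p = u.1 ∨ p = u.1 - 1) → (q = u.2 ∨ q = u.2 - 1) →
      Cor ((p, q) : ℤ × ℤ) u := by
    intro p q h1 h2
    simp only [Cor]
    omega
  have tou : ∀ a : ℤ × ℤ, Cor a u → Wc D η a u ∧ Wc D η u a := by
    rintro ⟨a1, a2⟩ ha
    have c0 := hU u.1 u.2 (Or.inl rfl) (Or.inl rfl)
    have c1 := hU (u.1 - 1) u.2 (Or.inr rfl) (Or.inl rfl)
    have c2 := hU u.1 (u.2 - 1) (Or.inl rfl) (Or.inr rfl)
    have c3 := hU (u.1 - 1) (u.2 - 1) (Or.inr rfl) (Or.inr rfl)
    have A1 : H318.Adj (u.1 - 1, u.2) (u.1, u.2) := by simp [H318.Adj]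
    have A1' : H318.Adj (u.1, u.2) (u.1 - 1, u.2) := by simp [H318.Adj]
    have A2 : H318.Adj (u.1, u.2 - 1) (u.1, u.2) := by simp [H318.Adj]
    have A2' : H318.Adj (u.1, u.2) (u.1, u.2 - 1) := by simp [H318.Adj]
    have A3 : H318.Adj (u.1 - 1, u.2 - 1) (u.1, u.2 - 1) := by simp [H318.Adj]
    have A3' : H318.Adj (u.1, u.2 - 1) (u.1 - 1, u.2 - 1) := by simp [H318.Adj]
    have k1 := wc_adj (h _ c1).1 (h _ c0).1 A1 (h _ c1).2
    have k1' := wc_adj (h _ c0).1 (h _ c1).1 A1' (h _ c0).2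
    have k2 := wc_adj (h _ c2).1 (h _ c0).1 A2 (h _ c2).2
    have k2' := wc_adj (h _ c0).1 (h _ c2).1 A2' (h _ c0).2
    have k3 := wc_adj (h _ c3).1 (h _ c2).1 A3 (h _ c3).2
    have k3' := wc_adj (h _ c2).1 (h _ c3).1 A3' (h _ c2).2
    obtain ⟨h1, h2⟩ := ha
    simp only at h1 h2
    rcases h1 with h1 | h1 <;> rcases h2 with h2 | h2
    · have e : ((a1, a2) : ℤ × ℤ) = (u.1, u.2) := by ext <;> simp <;> omega
      rw [e]
      exact ⟨ReflTransGen.refl, ReflTransGen.refl⟩
    · have e : ((a1, a2) : ℤ × ℤ) = (u.1, u.2 - 1) := by ext <;> simp <;> omega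
      rw [e]
      exact ⟨k2, k2'⟩
    · have e : ((a1, a2) : ℤ × ℤ) = (u.1 - 1, u.2) := by ext <;> simp <;> omega
      rw [e]
      exact ⟨k1, k1'⟩
    · have e : ((a1, a2) : ℤ × ℤ) = (u.1 - 1, u.2 - 1) := by ext <;> simp <;> omega
      rw [e]
      exact ⟨k3.trans k2, k2'.trans k3'⟩
  exact (tou a ha).1.trans (tou b hb).2

/-- **The thick configuration of a lattice polygon has no island.** -/
theorem fz_thk (hp : IsPolygon p) (hS : Encloses p S) (h0 : 0 < k) (hk : k < n) {z : ℤ × ℤ}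
    {R' R : ℤ} {c : Bool} (hR : R' < R) (hN : NearC p k z R c) :
    Fz 0 z R' (Dq S p k) (thk p k S z R c) := by
  cases c
  · rw [thk_false hp hN]
    exact fz_poly hp hS z R'
  -- all the squares around an exterior face near `z` are frozen and open
  have hcol : ∀ v, v ∉ Dq S p k → lv z v ≤ R' → thk p k S z R true v = true := by
    intro v hv h1
    unfold thk
    rw [if_pos ⟨nm_bq hR h1, hv⟩]
  have hoff : ∀ f, f ∉ S → ∀ v b, Cor v (H192.rf f) → lv z v < R' → Cor b (H192.rf f) →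
      b ∉ Dq S p k ∧ thk p k S z R true b = true := by
    intro f hf v b hv h1 hb
    have h2 : lv z b ≤ R' := by
      have := lv_cor (x := z) hv hb
      omega
    have h3 : b ∉ Dq S p k := by
      intro h3
      obtain ⟨i, hi, d, hd⟩ := QC.ext_face hp hS h0 hk h3 hb (rf_odd f) rfl hf
      have h4 : nm (H192.ro (p i) - z) ≤ R + 1 := by
        have h5 := cor_near (z := z) hv h1.le
        rw [← hd] at h5
        have h6 : ∀ d : Fin 4, nm (H192.rf (face (p i) d) - H192.ro (p i)) ≤ 1 := by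
          intro d
          rcases H192.fin4_cases d with rfl | rfl | rfl | rfl <;>
            simp only [face, H192.rf, H192.ro, nm, Prod.fst_sub, Prod.snd_sub, max_le_iff, abs_le] <;>
            simp <;> omega
        have h7 := h6 d
        simp only [nm, Prod.fst_sub, Prod.snd_sub, max_le_iff, abs_le] at h5 h7 ⊢
        omega
      have := (hN i (by omega) h4).1 rfl
      omega
    exact ⟨h3, hcol b h3 h2⟩
  have key : ∀ s t, Pw (Gs S) s t → (∃ f, f ∉ S ∧ s = H192.rf f) →
      (∀ w, Cor w t → R' ≤ lv z w) → ∀ v, v ∉ Dq S p k → Cor v s → lv z v ≤ R' →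
      ∃ w, R' ≤ lv z w ∧ Wc (Dq S p k) (thk p k S z R true) v w := by
    intro s t h
    induction h using ReflTransGen.head_induction_on with
    | refl => exact fun _ ht v _ hc _ => ⟨v, ht v hc, ReflTransGen.refl⟩
    | @head s s' h1 _ ih =>
      rintro ⟨f, hf, rfl⟩ ht v hv hc hvR
      by_cases h2 : R' ≤ lv z v
      · exact ⟨v, h2, ReflTransGen.refl⟩
      obtain ⟨c1, c2⟩ := cor_of_step h1
      set m : ℤ × ℤ := (min (H192.rf f).1 s'.1, min (H192.rf f).2 s'.2) with hm
      have hmG : H192.ed m ∉ edges S := h1.2.2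
      have hs' : (s'.1 + s'.2) % 2 = 1 := by
        have h3 := rf_odd f
        obtain ⟨g1, g2, -⟩ := h1
        omega
      have hf' : ∃ f', f' ∉ S ∧ s' = H192.rf f' := by
        obtain ⟨u, r, hu⟩ := exists_form m
        have hms : m = H192.sq s(u, u + dir (r + 1)) := by rw [← hu, H192.sq_ed]
        rw [hu, mem_edges, fin4_back, not_or] at hmG
        rcases odd_corner (hms ▸ c2) hs' with h3 | h3
        · exact ⟨_, hmG.2, h3⟩
        · exact ⟨_, hmG.1, h3⟩
      have h3 : Wc (Dq S p k) (thk p k S z R true) v m :=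
        around_open (u := H192.rf f) (fun b hb => hoff f hf v b hc (by omega) hb) hc c1
      have hmR : lv z m ≤ R' := by
        have := lv_cor (x := z) hc c1
        omega
      obtain ⟨w, h4, h5⟩ := ih hf' ht m (hoff f hf v m hc (by omega) c1).1 c2 hmR
      exact ⟨w, h4, h3.trans h5⟩
  refine ⟨∅, le_rfl, fun v hv hvR => ?_⟩
  obtain ⟨f, hf, hc⟩ := out_face hp hS hv
  obtain ⟨f', h1, h2⟩ := far_out hp hS hf (R' + |z.1 + z.2| + 1)
  obtain ⟨w, h3, h4⟩ := key _ _ h1 ⟨f, hf, rfl⟩ (fun w hw => far_lv h2 hw) v hv hc hvR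
  exact ⟨w, Or.inl h3, h4⟩

/-! ### Frozen squares joined to few sites -/

/-- A path of frozen squares of one colour. -/
theorem conn_wc {D : Finset (ℤ × ℤ)} {η : Cfg} {z : ℤ × ℤ} {R : ℤ} {b : Bool} {v q : ℤ × ℤ}
    (hv : v ∉ D) (hb : η v = b)
    (h : Conn z R (cf D η (if b then ∅ else D)) (H161.cor b v) q) :
    ∃ w, w ∉ D ∧ η w = b ∧ Wc D η v w ∧ Cor w q ∧ (q.1 + q.2) % 2 = QC.par b := by
  unfold Conn at h
  induction h with
  | refl =>
    refine ⟨v, hv, hb, ReflTransGen.refl, ?_, ?_⟩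
    · cases b
      · exact H174.CT.cor_da' v
      · exact H174.CT.cor_pa' v
    · cases b
      · have := H161.odd_da v
        rw [Int.odd_iff] at this
        simpa [H161.cor, QC.par] using this
      · have := H161.even_pa v
        rw [Int.even_iff] at this
        simpa [H161.cor, QC.par] using this
  | @tail s t _ hst ih =>
    obtain ⟨w, h1, h2, h3, h4, h5⟩ := ih
    obtain ⟨-, hst⟩ := hst
    set m : ℤ × ℤ := (min s.1 t.1, min s.2 t.2) with hm
    have hmm : m ∉ D ∧ η m = b ∧ (t.1 + t.2) % 2 = QC.par b ∧ Cor m s ∧ Cor m t := by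
      rcases hst with ⟨k1, k2, k3, k4⟩ | ⟨k1, k2, k3, k4⟩
      · rw [Int.even_iff] at k1
        have hbt : b = true := by
          cases b
          · simp only [QC.par, Bool.false_eq_true, if_false] at h5
            omega
          · rfl
        subst hbt
        have k5 : cf D η ∅ m = true := by
          have := k4
          rw [if_pos rfl] at this
          exact this
        have k6 : m ∉ D := by
          intro hmD
          unfold cf at k5
          rw [if_pos hmD] at k5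
          simp at k5
        rw [cf_out k6] at k5
        refine ⟨k6, k5, ?_, ?_, ?_⟩
        · simp only [QC.par, if_true]
          omega
        · simp only [Cor, hm]
          omega
        · simp only [Cor, hm]
          omega
      · rw [Int.odd_iff] at k1
        have hbt : b = false := by
          cases b
          · rfl
          · simp only [QC.par, if_true] at h5
            omega
        subst hbt
        have k5 : ¬ cf D η D m = true := by
          have := k4
          rw [if_neg Bool.false_ne_true] at this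
          exact this
        have k6 : m ∉ D := by
          intro hmD
          apply k5
          unfold cf
          rw [if_pos hmD]
          simp [hmD]
        rw [cf_out k6, Bool.not_eq_true] at k5
        refine ⟨k6, k5, ?_, ?_, ?_⟩
        · simp only [QC.par, Bool.false_eq_true, if_false]
          omega
        · simp only [Cor, hm]
          omega
        · simp only [Cor, hm]
          omega
    obtain ⟨g1, g2, g3, g4, g5⟩ := hmm
    refine ⟨m, g1, g2, h3.tail ⟨h1, g1, s, h4, g4, ?_⟩, g5, g3⟩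
    cases b
    · exact Or.inl ⟨h5, Or.inl h2⟩
    · exact Or.inr ⟨h5, Or.inl h2⟩

/-- Two frozen squares of one colour with a common corner. -/
theorem wa_col {η : Cfg} {b : Bool} {w w' q : ℤ × ℤ} (h1 : η w = b) (hc : Cor w q) (hc' : Cor w' q)
    (hq : (q.1 + q.2) % 2 = QC.par b) : Wa η w w' := by
  refine ⟨q, hc, hc', ?_⟩
  cases b
  · exact Or.inl ⟨hq, Or.inl h1⟩
  · exact Or.inr ⟨hq, Or.inl h1⟩

open Classical in
/-- The frozen squares of the box are joined to the sites of `P`. -/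
theorem fz_con {D : Finset (ℤ × ℤ)} {η : Cfg} {z : ℤ × ℤ} {R' R : ℤ} {P : Finset (ℤ × ℤ)}
    (h : ∀ T ⊆ D, ∀ v, v ∉ D → nm (v - z) ≤ R' →
      ∃ q ∈ P, Conn z R (cf D η T) (H161.cor (cf D η T v) v) q) : Fz P.card z R' D η := by
  set good : ℤ × ℤ → ℤ × ℤ → Prop := fun q w => w ∉ D ∧ Cor w q ∧
    (q.1 + q.2) % 2 = QC.par (η w) with hgood
  set f : ℤ × ℤ → ℤ × ℤ := fun q => if h : ∃ w, good q w then h.choose else q with hf
  refine ⟨P.image f, Finset.card_image_le, fun v hv hvR => ?_⟩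
  obtain ⟨q, hq, h1⟩ := h (if η v then ∅ else D) (by split_ifs <;> simp) v hv hvR
  rw [cf_out hv] at h1
  obtain ⟨w, g1, g2, g3, g4, g5⟩ := conn_wc hv rfl h1
  have hex : ∃ w, good q w := ⟨w, g1, g4, by rw [g2]; exact g5⟩
  have hfq : f q = hex.choose := by
    simp only [hf]
    rw [dif_pos hex]
  obtain ⟨k1, k2, k3⟩ := hex.choose_spec
  refine ⟨f q, Or.inr (Finset.mem_image_of_mem _ hq), g3.tail ⟨g1, ?_, ?_⟩⟩
  · rw [hfq]
    exact k1
  · rw [hfq]
    exact wa_col g2 g4 k2 g5

open Classical in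
/-- The frozen squares of the box belong to one primal and one dual cluster. -/
theorem fz_oneC {D : Finset (ℤ × ℤ)} {η : Cfg} {z : ℤ × ℤ} {R' R₁ : ℤ} (hR' : R' ≤ R₁)
    (h : H562.QM.OneC z R₁ D η) : Fz 2 z R' D η := by
  obtain ⟨h1, h2⟩ := h
  set P1 : Finset (ℤ × ℤ) := if hx : ∃ w, nm (w - z) ≤ R₁ ∧ w ∉ D ∧ η w = true then
    {FK.pa hx.choose} else ∅ with hP1
  set P2 : Finset (ℤ × ℤ) := if hx : ∃ w, nm (w - z) ≤ R₁ ∧ w ∉ D ∧ η w = false then
    {FK.da hx.choose} else ∅ with hP2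
  have c1 : P1.card ≤ 1 := by
    rw [hP1]
    split_ifs <;> simp
  have c2 : P2.card ≤ 1 := by
    rw [hP2]
    split_ifs <;> simp
  have hc : (P1 ∪ P2).card ≤ 2 := (Finset.card_union_le _ _).trans (by omega)
  refine Fz.mono ?_ hc
  refine fz_con (R := R₁ + 1) fun S hS v hv hvR => ?_
  have hω : ∀ v, v ∉ D → cf D η S v = η v := fun v hv => cf_out hv
  have hvR1 : nm (v - z) ≤ R₁ := hvR.trans hR'
  rw [hω v hv]
  cases hb : η v
  · have hx : ∃ w, nm (w - z) ≤ R₁ ∧ w ∉ D ∧ η w = false := ⟨v, hvR1, hv, hb⟩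
    refine ⟨FK.da hx.choose, ?_, ?_⟩
    · rw [Finset.mem_union, hP2, dif_pos hx]
      exact Or.inr (Finset.mem_singleton_self _)
    · obtain ⟨k1, k2, k3⟩ := hx.choose_spec
      exact H174.CT.conn_closed (by omega) h2 hω hvR1 hv hb k1 k2 k3
  · have hx : ∃ w, nm (w - z) ≤ R₁ ∧ w ∉ D ∧ η w = true := ⟨v, hvR1, hv, hb⟩
    refine ⟨FK.pa hx.choose, ?_, ?_⟩
    · rw [Finset.mem_union, hP1, dif_pos hx]
      exact Or.inl (Finset.mem_singleton_self _)
    · obtain ⟨k1, k2, k3⟩ := hx.choose_spec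
      exact H174.CT.conn_open (by omega) h1 hω hvR1 hv hb k1 k2 k3

/-- In the bulk. -/
theorem fz_bulk {D : Finset (ℤ × ℤ)} {η : Cfg} {z : ℤ × ℤ} {R' R : ℤ} (hR : R' < R)
    (h : FK.Bq z R ⊆ D) : Fz 0 z R' D η :=
  ⟨∅, le_rfl, fun _ hv hvR => absurd (h (nm_bq hR hvR)) hv⟩

end Vale.Agent.P167.N.QC
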