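import Vale.Agent.P167.N.QC.Oc
import Vale.Agent.P167.N.Kit

/-!
# P167, `0 < q < 1`: one arm in a domain with at most `m` islands

`UTc Q`: the bound for the part of a domain in an annulus whose complement is connected (through odd
corners). `ut_isl`: at most `m` islands.
-/

set_option autoImplicit false

namespace Vale.Agent.P167.N.QC

open Finset Relation Vale.Agent.P167 Vale.Agent.P167.FK Vale.Agent.P167.FKA
open Vale.Agent.P145.FB (PStep PConn)
open Vale.Agent.P167.H166 (cl bxx mem_bxx)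
open Vale.Agent.P167.H192.TA (Pw)

/-- The open squares of `G` cross from the level `r` to the level `R`. -/
def Xr (x : ℤ × ℤ) (r R : ℤ) (G : Finset (ℤ × ℤ)) : Set Cfg :=
  {ω | ∃ s t : ℤ × ℤ, (s.1 + s.2) % 2 = 0 ∧ nm (s - x) ≤ r + 2 ∧ R - 1 ≤ nm (t - x) ∧
    Pw (Op G ω) s t}

/-- The complement of `G` is connected through odd corners. -/
def OcC (G : Finset (ℤ × ℤ)) : Prop := ∀ v w, v ∉ G → w ∉ G → Oc (↑G : Set (ℤ × ℤ))ᶜ v w

/-- **One arm in a set of squares of an annulus with connected complement.** -/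
def UTc (Q : ℝ) : Prop := ∃ α C : ℝ, 0 < α ∧ 0 < C ∧ ∀ (x : ℤ × ℤ) (r R : ℤ), 1 ≤ r → r ≤ R →
  ∀ G : Finset (ℤ × ℤ), G ⊆ An x r R → OcC G → ∀ η : Cfg, Good η →
    Pr Q G η (Xr x r R G) ≤ C * ((r : ℝ) / R) ^ α

variable {x : ℤ × ℤ} {r r' R R' a b : ℤ} {D G : Finset (ℤ × ℤ)}

theorem An_mono (h1 : r ≤ r') (h2 : R' ≤ R) : An x r' R' ⊆ An x r R := by
  intro v hv
  rw [mem_An] at hv ⊢
  omega

/-- A part of a crossing. -/
theorem Xr_sub (h1 : r ≤ r') (h2 : R' ≤ R) (ω : Cfg) (h : ω ∈ Xr x r R D) :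
    ω ∈ Xr x r' R' (D ∩ An x r' R') := by
  obtain ⟨s, t, hs, h3, h4, h5⟩ := h
  have key : ∀ t, Pw (Op D ω) s t →
      (∃ s', (s'.1 + s'.2) % 2 = 0 ∧ nm (s' - x) ≤ r' + 2 ∧ Pw (Op (D ∩ An x r' R') ω) s' t) ∨
      ω ∈ Xr x r' R' (D ∩ An x r' R') := by
    intro t ht
    induction ht with
    | refl => exact Or.inl ⟨s, hs, by omega, ReflTransGen.refl⟩
    | @tail t t2 h6 h7 ih =>
      rcases ih with ⟨s', g1, g2, g3⟩ | h
      · by_cases h8 : nm (t2 - x) ≤ r' + 2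
        · refine Or.inl ⟨t2, ?_, h8, ReflTransGen.refl⟩
          have := Pw.parity (h6.tail h7)
          omega
        by_cases h9 : R' - 1 ≤ nm (t - x)
        · exact Or.inr ⟨s', t, g1, g2, h9, g3⟩
        · refine Or.inl ⟨s', g1, g2, g3.tail ⟨h7.1, h7.2.1, ?_⟩⟩
          obtain ⟨k1, k2, k3, k4⟩ := h7
          refine ⟨Finset.mem_inter.2 ⟨k3, ?_⟩, k4⟩
          rw [mem_An]
          simp only [lv, nm, Prod.fst_sub, Prod.snd_sub, max_le_iff, abs_le, lt_max_iff, lt_abs,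
            le_max_iff, le_abs] at *
          omega
      · exact Or.inr h
  rcases key t h5 with ⟨s', g1, g2, g3⟩ | h
  · exact ⟨s', t, g1, g2, by omega, g3⟩
  · exact h

/-- The event depends on the squares of the set only. -/
theorem Xr_loc {ω ω' : Cfg} (h : ∀ v ∈ G, ω v = ω' v) (hω : ω ∈ Xr x r R G) : ω' ∈ Xr x r R G := by
  obtain ⟨s, t, h1, h2, h3, h4⟩ := hω
  refine ⟨s, t, h1, h2, h3, Pw.mono ?_ h4⟩
  intro v hv
  exact ⟨hv.1, by rw [← h v hv.1]; exact hv.2⟩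

/-- The bound in a larger domain. -/
theorem Xr_le {Q : ℝ} (hQ : 0 < Q) {A : Set Cfg} {c : ℝ} (hGD : G ⊆ D)
    (h : ∀ ζ, Good ζ → Pr Q G ζ A ≤ c) {η : Cfg} (hη : Good η) : Pr Q D η A ≤ c := by
  unfold Pr
  rw [H259.f_markov Q G D η _ hQ hGD hη, ← Ex_const (Q := Q) (D := D) (η := η) hQ c]
  exact Ex_mono hQ fun S _ => h _ (f_good.1 D η S hη)

/-- The product of the bounds of two disjoint annuli. -/
theorem Xr_mul {Q : ℝ} (hQ : 0 < Q) {G₁ G₂ : Finset (ℤ × ℤ)} (hd : Disjoint G₁ G₂)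
    (h1 : G₁ ⊆ D) {A A₁ A₂ : Set Cfg} (hA : A ⊆ A₁ ∩ A₂)
    (hA₂ : ∀ ω ω', (∀ v ∈ G₂, ω v = ω' v) → ω ∈ A₂ → ω' ∈ A₂) {c₁ c₂ : ℝ} (hc : 0 ≤ c₁)
    (k1 : ∀ ζ, Good ζ → Pr Q G₁ ζ A₁ ≤ c₁) {η : Cfg} (hη : Good η) (k2 : Pr Q D η A₂ ≤ c₂) :
    Pr Q D η A ≤ c₁ * c₂ := by
  have hInd : Ind G₁ (A₂.indicator (1 : Cfg → ℝ)) := by
    intro ω ω' h
    have h3 : ∀ v ∈ G₂, ω v = ω' v := fun v hv => h v fun hv' => Finset.disjoint_left.1 hd hv' hv
    by_cases h4 : ω ∈ A₂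
    · rw [Set.indicator_of_mem h4, Set.indicator_of_mem (hA₂ ω ω' h3 h4)]
      rfl
    · rw [Set.indicator_of_notMem h4, Set.indicator_of_notMem fun h5 =>
        h4 (hA₂ ω' ω (fun v hv => (h3 v hv).symm) h5)]
  have h4 : Pr Q D η A ≤ Ex Q D η (fun ω => A₂.indicator 1 ω * A₁.indicator 1 ω) := by
    refine Ex_mono hQ fun S _ => ?_
    by_cases h5 : cf D η S ∈ A
    · obtain ⟨h6, h7⟩ := hA h5
      rw [Set.indicator_of_mem h5, Set.indicator_of_mem h6, Set.indicator_of_mem h7]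
      simp
    · rw [Set.indicator_of_notMem h5]
      exact mul_nonneg (ind_nonneg _ _) (ind_nonneg _ _)
  refine h4.trans ?_
  have h5 := markov_le H259.f_markov f_good hQ (F := A₁.indicator 1) h1 hη hInd
    (fun ω => ind_nonneg _ _) (a := c₁) (fun ζ hζ => k1 ζ hζ)
  exact h5.trans (mul_le_mul_of_nonneg_left k2 hc)

/-- The complement of the part of `D` in the annulus is connected. -/
theorem occ_of
    (h1 : ∀ v, v ∉ D → r < lv x v → lv x v ≤ R → ∃ w, (lv x w ≤ r ∨ R < lv x w) ∧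
      Oc (Cf x r R D) v w)
    (h2 : ∃ u u', lv x u ≤ r ∧ R < lv x u' ∧ Oc (Cf x r R D) u u') : OcC (D ∩ An x r R) := by
  obtain ⟨u, u', hu, hu', huu⟩ := h2
  have hin : {w | lv x w ≤ r} ⊆ Cf x r R D := fun w hw _ => Or.inl hw
  have hout : {w | R < lv x w} ⊆ Cf x r R D := fun w hw _ => Or.inr hw
  have key : ∀ v, v ∉ D ∩ An x r R → Oc (Cf x r R D) v u := by
    intro v hv
    by_cases g1 : lv x v ≤ r
    · exact (box_conn g1 hu).mono hin
    by_cases g2 : R < lv x v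
    · exact ((out_conn g2 hu').mono hout).trans huu.symm
    have hvD : v ∉ D := fun h => hv (Finset.mem_inter.2 ⟨h, mem_An.2 ⟨by omega, by omega⟩⟩)
    obtain ⟨w, hw, h3⟩ := h1 v hvD (by omega) (by omega)
    rcases hw with hw | hw
    · exact h3.trans ((box_conn hw hu).mono hin)
    · exact (h3.trans ((out_conn hw hu').mono hout)).trans huu.symm
  intro v w hv hw
  rw [← Cf_compl]
  exact (key v hv).trans (key w hw).symm

/-- Three consecutive annuli. -/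
theorem Xr_three {Q : ℝ} (hQ : 0 < Q) (h1 : r ≤ a) (h2 : a ≤ b) (h3 : b ≤ R) {c₁ c₂ c₃ : ℝ}
    (hc1 : 0 ≤ c₁) (hc2 : 0 ≤ c₂)
    (k1 : ∀ ζ, Good ζ → Pr Q (D ∩ An x r a) ζ (Xr x r a (D ∩ An x r a)) ≤ c₁)
    (k2 : ∀ ζ, Good ζ → Pr Q (D ∩ An x a b) ζ (Xr x a b (D ∩ An x a b)) ≤ c₂)
    (k3 : ∀ ζ, Good ζ → Pr Q (D ∩ An x b R) ζ (Xr x b R (D ∩ An x b R)) ≤ c₃)
    {ζ : Cfg} (hζ : Good ζ) :
    Pr Q (D ∩ An x r R) ζ (Xr x r R (D ∩ An x r R)) ≤ c₁ * (c₂ * c₃) := by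
  have hsub : ∀ {r' R' : ℤ}, r ≤ r' → R' ≤ R → (D ∩ An x r R) ∩ An x r' R' = D ∩ An x r' R' := by
    intro r' R' g1 g2
    ext v
    simp only [Finset.mem_inter, mem_An]
    constructor
    · rintro ⟨⟨h, -⟩, h'⟩; exact ⟨h, h'⟩
    · rintro ⟨h, h'⟩; exact ⟨⟨h, by omega⟩, h'⟩
  have hs : ∀ {r' R' : ℤ}, r ≤ r' → R' ≤ R → D ∩ An x r' R' ⊆ D ∩ An x r R := fun g1 g2 =>
    Finset.inter_subset_inter_left (An_mono g1 g2)
  have hpiece : ∀ {r' R' : ℤ}, r ≤ r' → R' ≤ R → ∀ ω ∈ Xr x r R (D ∩ An x r R),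
      ω ∈ Xr x r' R' (D ∩ An x r' R') := by
    intro r' R' g1 g2 ω hω
    have := Xr_sub g1 g2 ω hω
    rwa [hsub g1 g2] at this
  have hdis : ∀ {a b c d : ℤ}, b ≤ c → Disjoint (D ∩ An x a b) (D ∩ An x c d) := by
    intro a b c d g
    rw [Finset.disjoint_left]
    intro v hv hv'
    rw [Finset.mem_inter, mem_An] at hv hv'
    omega
  refine Xr_mul hQ (G₁ := D ∩ An x r a) (G₂ := D ∩ An x a R) (hdis le_rfl)
    (hs le_rfl (h2.trans h3)) (A₁ := Xr x r a (D ∩ An x r a))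
    (A₂ := Xr x a b (D ∩ An x a b) ∩ Xr x b R (D ∩ An x b R))
    (fun ω hω => ⟨hpiece le_rfl (h2.trans h3) ω hω, hpiece h1 h3 ω hω,
      hpiece (h1.trans h2) le_rfl ω hω⟩) ?_ hc1 k1 hζ ?_
  · rintro ω ω' h ⟨g1, g2⟩
    exact ⟨Xr_loc (fun v hv => h v (Finset.inter_subset_inter_left (An_mono le_rfl h3) hv)) g1,
      Xr_loc (fun v hv => h v (Finset.inter_subset_inter_left (An_mono h2 le_rfl) hv)) g2⟩
  · exact Xr_mul hQ (G₁ := D ∩ An x a b) (G₂ := D ∩ An x b R) (hdis le_rfl) (hs h1 h3)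
      (A₁ := Xr x a b (D ∩ An x a b)) (A₂ := Xr x b R (D ∩ An x b R)) (fun ω hω => hω)
      (fun ω ω' h g => Xr_loc h g) hc2 k2 hζ (Xr_le hQ (hs (h1.trans h2) le_rfl) k3 hζ)

/-- A full annulus. -/
theorem arm_full {Q : ℝ} (hQ : 0 < Q) {α C : ℝ} (hα : 0 < α) (hC : 0 < C) (hA : ArmDec Q α C)
    (h1 : 1 ≤ a) (h2 : a ≤ b) (hD : ∀ v, a < lv x v → lv x v < b → v ∈ D) {ζ : Cfg}
    (hζ : Good ζ) : Pr Q (D ∩ An x a b) ζ (Xr x a b (D ∩ An x a b)) ≤
      (C * 4 ^ α + 4 ^ α) * ((a : ℝ) / b) ^ α := by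
  have ha : (1 : ℝ) ≤ a := by exact_mod_cast h1
  have hb : (a : ℝ) ≤ b := by exact_mod_cast h2
  have hab : (0 : ℝ) ≤ (a : ℝ) / b := div_nonneg (by linarith) (by linarith)
  have h4 : (0 : ℝ) ≤ ((a : ℝ) / b) ^ α := Real.rpow_nonneg hab _
  have h4' : (0 : ℝ) < 4 ^ α := by positivity
  by_cases h3 : a + 2 ≤ b - 1
  · have h5 := hA x (a + 2) (b - 1) (D ∩ An x a b) ζ (fun _ => 1) (by omega) h3 hζ ?_
      (fun _ => zero_le_one) (fun _ _ _ => rfl)
    · simp only [one_mul] at h5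
      rw [Ex_const hQ, mul_one] at h5
      have h6 : Pr Q (D ∩ An x a b) ζ (Xr x a b (D ∩ An x a b)) ≤
          Ex Q (D ∩ An x a b) ζ ({ω | ArmPx x (a + 2) (b - 1) ω}.indicator 1) := by
        refine Pr_mono hQ ?_
        rintro ω ⟨s, t, g1, g2, g3, g4⟩
        show ArmPx x (a + 2) (b - 1) ω
        rw [armPx_iff h3]
        exact ⟨s, t, Int.even_iff.2 g1, g2, g3, Pw.mono (fun v hv => hv.2) g4⟩
      refine h6.trans (h5.trans ?_)
      have h7 : (((a + 2 : ℤ) : ℝ) / ((b - 1 : ℤ) : ℝ)) ^ α ≤ 4 ^ α * ((a : ℝ) / b) ^ α := by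
        have hb4 : (a : ℝ) + 3 ≤ b := by exact_mod_cast (by omega : a + 3 ≤ b)
        rw [← Real.mul_rpow (by norm_num) hab]
        refine Real.rpow_le_rpow ?_ ?_ hα.le
        · push_cast
          exact div_nonneg (by linarith) (by linarith)
        · push_cast
          rw [← mul_div_assoc, div_le_div_iff₀ (by linarith) (by linarith)]
          nlinarith
      calc C * (((a + 2 : ℤ) : ℝ) / ((b - 1 : ℤ) : ℝ)) ^ α
          ≤ C * (4 ^ α * ((a : ℝ) / b) ^ α) := mul_le_mul_of_nonneg_left h7 hC.le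
        _ ≤ _ := by nlinarith [mul_nonneg h4'.le h4]
    · intro v hv
      rw [Finset.mem_inter, mem_An]
      rw [Finset.mem_sdiff] at hv
      simp only [Bq, Finset.mem_product, Finset.mem_Ico, not_and_or, not_le, not_lt] at hv
      have g : a < lv x v ∧ lv x v < b := by
        simp only [lv, nm, Prod.fst_sub, Prod.snd_sub, max_lt_iff, abs_lt, lt_max_iff, lt_abs]
        omega
      exact ⟨hD v g.1 g.2, g.1, g.2.le⟩
  · refine (FKA.Pr_le_one hQ _).trans ?_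
    have h5 : 1 ≤ 4 ^ α * ((a : ℝ) / b) ^ α := by
      rw [← Real.mul_rpow (by norm_num) hab]
      refine Real.one_le_rpow ?_ hα.le
      have : (b : ℝ) ≤ a + 3 := by exact_mod_cast (by omega : b ≤ a + 3)
      rw [← mul_div_assoc, one_le_div (by linarith)]
      linarith
    nlinarith [mul_nonneg (mul_nonneg hC.le h4'.le) h4]

/-- **One arm in a domain with at most `m` islands.** -/
theorem ut_isl {Q : ℝ} (K : Kit Q) (hU : UTc Q) : ∃ α : ℝ, 0 < α ∧ ∀ m : ℕ, ∃ C : ℝ, 1 ≤ C ∧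
    ∀ (x : ℤ × ℤ) (r R : ℤ), 1 ≤ r → r ≤ R → ∀ D : Finset (ℤ × ℤ), Isl m x r R D →
      ∀ ζ : Cfg, Good ζ →
        Pr Q (D ∩ An x r R) ζ (Xr x r R (D ∩ An x r R)) ≤ C * ((r : ℝ) / R) ^ α := by
  classical
  have hQ := K.pos
  obtain ⟨α₁, C₁, hα₁, hC₁, hU⟩ := hU
  obtain ⟨α₂, C₂, hα₂, hC₂, hA, -⟩ := K.arm
  set α := min α₁ α₂ with hα
  have hα0 : 0 < α := lt_min hα₁ hα₂
  set c1 : ℝ := max 1 C₁ with hc1
  set c2 : ℝ := C₂ * 4 ^ α₂ + 4 ^ α₂ with hc2
  have hc10 : 1 ≤ c1 := le_max_left _ _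
  have hc20 : 1 ≤ c2 := by
    have : (1 : ℝ) ≤ 4 ^ α₂ := Real.one_le_rpow (by norm_num) hα₂.le
    have : 0 ≤ C₂ * 4 ^ α₂ := by positivity
    linarith
  have hfrac : ∀ {u v : ℤ}, 1 ≤ u → u ≤ v → (0 : ℝ) < (u : ℝ) / v ∧ (u : ℝ) / v ≤ 1 := by
    intro u v h1 h2
    have h1' : (1 : ℝ) ≤ u := by exact_mod_cast h1
    have h2' : (u : ℝ) ≤ v := by exact_mod_cast h2
    exact ⟨div_pos (by linarith) (by linarith), (div_le_one (by linarith)).2 h2'⟩
  have hexp : ∀ {u v : ℤ} {β : ℝ}, 1 ≤ u → u ≤ v → α ≤ β → ((u : ℝ) / v) ^ β ≤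
      ((u : ℝ) / v) ^ α := fun h1 h2 h3 =>
    Real.rpow_le_rpow_of_exponent_ge (hfrac h1 h2).1 (hfrac h1 h2).2 h3
  have htel : ∀ {r a b R : ℤ}, 1 ≤ r → r ≤ a → a ≤ b → b ≤ R →
      ((r : ℝ) / a) ^ α * (((a : ℝ) / b) ^ α * ((b : ℝ) / R) ^ α) = ((r : ℝ) / R) ^ α := by
    intro r a b R h1 h2 h3 h4
    have h1' : (1 : ℝ) ≤ r := by exact_mod_cast h1
    have h2' : (r : ℝ) ≤ a := by exact_mod_cast h2
    have h3' : (a : ℝ) ≤ b := by exact_mod_cast h3
    have h4' : (b : ℝ) ≤ R := by exact_mod_cast h4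
    have e1 : (0 : ℝ) ≤ (a : ℝ) / b := (hfrac (by omega) h3).1.le
    have e2 : (0 : ℝ) ≤ (b : ℝ) / R := (hfrac (by omega) h4).1.le
    rw [← Real.mul_rpow e1 e2, ← Real.mul_rpow (hfrac h1 h2).1.le (mul_nonneg e1 e2)]
    congr 1
    have : (a : ℝ) ≠ 0 := by linarith
    have : (b : ℝ) ≠ 0 := by linarith
    have : (R : ℝ) ≠ 0 := by linarith
    field_simp
  have hpow : ∀ {u v : ℤ}, 1 ≤ u → u ≤ v → 0 ≤ ((u : ℝ) / v) ^ α := fun h1 h2 =>
    Real.rpow_nonneg (hfrac h1 h2).1.le _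
  refine ⟨α, hα0, fun m => ?_⟩
  induction m with
  | zero =>
    refine ⟨c1 * (c2 * c1), by nlinarith [mul_le_mul hc20 hc10 zero_le_one (by linarith)], ?_⟩
    intro x r R hr hrR D hI ζ hζ
    obtain ⟨P, hP, hI⟩ := hI
    have hP0 : P = ∅ := Finset.card_eq_zero.1 (Nat.le_zero.1 hP)
    subst hP0
    set F := Cf x r R D with hF
    -- the highest level of the walls joined to the inner box
    obtain ⟨a, hra, haR, ha1, ha2⟩ : ∃ a, r ≤ a ∧ a ≤ R ∧
        (∀ v, v ∉ D → a < lv x v → lv x v ≤ R → ∀ u, lv x u ≤ r → ¬ Oc F v u) ∧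
        (a = r ∨ ∃ w u, lv x w = a ∧ w ∉ D ∧ lv x u ≤ r ∧ Oc F w u) := by
      set T := (An x r R).filter fun w => w ∉ D ∧ ∃ u, lv x u ≤ r ∧ Oc F w u with hT
      rcases T.eq_empty_or_nonempty with h0 | h0
      · refine ⟨r, le_rfl, hrR, fun v hv h1 h2 u hu h3 => ?_, Or.inl rfl⟩
        have : v ∈ T := Finset.mem_filter.2 ⟨mem_An.2 ⟨h1, h2⟩, hv, u, hu, h3⟩
        rw [h0] at this
        exact absurd this (Finset.notMem_empty v)
      · obtain ⟨w, hw, hmax⟩ := T.exists_max_image (lv x) h0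
        obtain ⟨hw1, hw2, u, hu, hw3⟩ := Finset.mem_filter.1 hw
        rw [mem_An] at hw1
        refine ⟨lv x w, hw1.1.le, hw1.2, fun v hv h1 h2 u hu h3 => ?_, Or.inr ⟨w, u, rfl, hw2, hu,
          hw3⟩⟩
        have := hmax v (Finset.mem_filter.2 ⟨mem_An.2 ⟨by omega, h2⟩, hv, u, hu, h3⟩)
        omega
    -- the lowest level of the other walls
    obtain ⟨b, hab, hbR, hb1, hb2⟩ : ∃ b, a ≤ b ∧ b ≤ R ∧
        (∀ v, a < lv x v → lv x v < b → v ∈ D) ∧ (b = R ∨ ∃ w, lv x w = b ∧ w ∉ D ∧ a < lv x w) := by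
      set T := (An x a R).filter fun w => w ∉ D with hT
      rcases T.eq_empty_or_nonempty with h0 | h0
      · refine ⟨R, haR, le_rfl, fun v h1 h2 => ?_, Or.inl rfl⟩
        by_contra hv
        have : v ∈ T := Finset.mem_filter.2 ⟨mem_An.2 ⟨h1, h2.le⟩, hv⟩
        rw [h0] at this
        exact absurd this (Finset.notMem_empty v)
      · obtain ⟨w, hw, hmin⟩ := T.exists_min_image (lv x) h0
        obtain ⟨hw1, hw2⟩ := Finset.mem_filter.1 hw
        rw [mem_An] at hw1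
        refine ⟨lv x w, hw1.1.le, hw1.2, fun v h1 h2 => ?_, Or.inr ⟨w, rfl, hw2, hw1.1⟩⟩
        by_contra hv
        have := hmin v (Finset.mem_filter.2 ⟨mem_An.2 ⟨h1, by omega⟩, hv⟩)
        omega
    -- a jump to the next level
    have hjump : ∀ c : ℤ, 0 ≤ c → ∀ r' : ℤ, r' ≤ c → ∃ u u', lv x u = c ∧ c < lv x u' ∧
        Oc (Cf x c c D) u u' := by
      intro c hc r' _
      have e : lv x (x.1 + c, x.2) = c := by
        simp only [lv, nm, Prod.fst_sub, Prod.snd_sub, add_sub_cancel_left, sub_self, abs_zero,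
          abs_of_nonneg hc]
        omega
      obtain ⟨u', h1, h2⟩ := step_out x (x.1 + c, x.2)
      rw [e] at h1
      exact ⟨_, u', e, by omega, Oc.one (fun _ => Or.inl e.le) (fun _ => Or.inr (by omega)) h2⟩
    have p1 : OcC (D ∩ An x r a) := by
      refine occ_of (fun v hv h1 h2 => ?_) ?_
      · obtain ⟨w, hw, h3⟩ := hI v hv h1 (h2.trans haR)
        refine ⟨w, ?_, h3.mono (Cf_mono le_rfl haR Finset.Subset.rfl)⟩
        rcases hw with hw | hw | hw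
        · exact Or.inl hw
        · exact Or.inr (by omega)
        · exact absurd hw (Finset.notMem_empty w)
      · rcases ha2 with ha2 | ⟨w, u, h1, h2, h3, h4⟩
        · rw [ha2]
          obtain ⟨u, u', h1, h2, h3⟩ := hjump r (by omega) r le_rfl
          exact ⟨u, u', h1.le, h2, h3⟩
        · obtain ⟨w', h5, h6⟩ := step_out x w
          refine ⟨u, w', h3, by omega, ?_⟩
          refine (h4.mono (Cf_mono le_rfl haR Finset.Subset.rfl)).symm.trans ?_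
          exact Oc.one (fun hw => absurd hw h2) (fun _ => Or.inr (by omega)) h6
    have p3 : OcC (D ∩ An x b R) := by
      refine occ_of (fun v hv h1 h2 => ?_) ?_
      · obtain ⟨w, hw, h3⟩ := hI v hv (by omega) h2
        refine ⟨w, ?_, h3.mono (Cf_mono (by omega) le_rfl Finset.Subset.rfl)⟩
        rcases hw with hw | hw | hw
        · exact absurd h3 (ha1 v hv (by omega) h2 w hw)
        · exact Or.inr hw
        · exact absurd hw (Finset.notMem_empty w)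
      · rcases hb2 with hb2 | ⟨w, h1, h2, h3⟩
        · rw [hb2]
          obtain ⟨u, u', h1, h2, h3⟩ := hjump R (by omega) R le_rfl
          exact ⟨u, u', h1.le, h2, h3⟩
        · obtain ⟨w', hw, h4⟩ := hI w h2 (by omega) (by omega)
          rcases hw with hw | hw | hw
          · exact absurd h4 (ha1 w h2 h3 (by omega) w' hw)
          · exact ⟨w, w', h1.le, hw, h4.mono (Cf_mono (by omega) le_rfl Finset.Subset.rfl)⟩
          · exact absurd hw (Finset.notMem_empty w')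
    have hUc : ∀ {u v : ℤ}, 1 ≤ u → u ≤ v → OcC (D ∩ An x u v) → ∀ ζ, Good ζ →
        Pr Q (D ∩ An x u v) ζ (Xr x u v (D ∩ An x u v)) ≤ c1 * ((u : ℝ) / v) ^ α := by
      intro u v h1 h2 h3 ζ hζ
      refine (hU x u v h1 h2 _ Finset.inter_subset_right h3 ζ hζ).trans ?_
      refine mul_le_mul (le_max_right _ _) (hexp h1 h2 (min_le_left _ _))
        (Real.rpow_nonneg (hfrac h1 h2).1.le _) (by linarith)
    have q1 := hUc hr hra p1
    have q3 := hUc (by omega) hbR p3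
    have q2 : ∀ ζ, Good ζ → Pr Q (D ∩ An x a b) ζ (Xr x a b (D ∩ An x a b)) ≤
        c2 * ((a : ℝ) / b) ^ α := by
      intro ζ hζ
      refine (arm_full hQ hα₂ hC₂ hA (by omega) hab hb1 hζ).trans ?_
      exact mul_le_mul_of_nonneg_left (hexp (by omega) hab (min_le_right _ _)) (by linarith)
    have h := Xr_three (D := D) (x := x) hQ hra hab hbR
      (mul_nonneg (by linarith) (hpow hr hra)) (mul_nonneg (by linarith) (hpow (by omega) hab))
      q1 q2 q3 hζ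
    refine h.trans (le_of_eq ?_)
    rw [← htel hr hra hab hbR]
    ring
  | succ m ih =>
    obtain ⟨Cm, hCm, ih⟩ := ih
    have hCm2 : 1 ≤ Cm * Cm := by nlinarith
    have hCm3 : Cm ≤ Cm * (Cm * Cm) := by nlinarith
    refine ⟨Cm * (Cm * Cm), by linarith, ?_⟩
    intro x r R hr hrR D hI ζ hζ
    have hfin : Isl m x r R D → Pr Q (D ∩ An x r R) ζ (Xr x r R (D ∩ An x r R)) ≤
        Cm * (Cm * Cm) * ((r : ℝ) / R) ^ α := fun h =>
      (ih x r R hr hrR D h ζ hζ).trans (mul_le_mul_of_nonneg_right hCm3 (hpow hr hrR))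
    obtain ⟨P, hP, hI⟩ := hI
    rcases P.eq_empty_or_nonempty with h0 | ⟨q, hq⟩
    · exact hfin ⟨P, by rw [h0]; simp, hI⟩
    set F := Cf x r R D with hF
    have hcard : (P.erase q).card ≤ m := by
      rw [Finset.card_erase_of_mem hq]
      omega
    by_cases hq1 : ∃ w0, (lv x w0 ≤ r ∨ R < lv x w0) ∧ Oc F q w0
    · obtain ⟨w0, h1, h2⟩ := hq1
      refine hfin ⟨P.erase q, hcard, fun v hv h3 h4 => ?_⟩
      obtain ⟨w, hw, h5⟩ := hI v hv h3 h4
      by_cases hwq : w = q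
      · rw [hwq] at h5
        refine ⟨w0, ?_, h5.trans h2⟩
        rcases h1 with h1 | h1
        · exact Or.inl h1
        · exact Or.inr (Or.inl h1)
      · refine ⟨w, ?_, h5⟩
        rcases hw with hw | hw | hw
        · exact Or.inl hw
        · exact Or.inr (Or.inl hw)
        · exact Or.inr (Or.inr (Finset.mem_erase.2 ⟨hwq, hw⟩))
    set T := (An x r R).filter fun w => w ∉ D ∧ Oc F w q with hT
    rcases T.eq_empty_or_nonempty with h0 | h0
    · refine hfin ⟨P.erase q, hcard, fun v hv h3 h4 => ?_⟩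
      obtain ⟨w, hw, h5⟩ := hI v hv h3 h4
      by_cases hwq : w = q
      · rw [hwq] at h5
        have : v ∈ T := Finset.mem_filter.2 ⟨mem_An.2 ⟨h3, h4⟩, hv, h5⟩
        rw [h0] at this
        exact absurd this (Finset.notMem_empty v)
      · refine ⟨w, ?_, h5⟩
        rcases hw with hw | hw | hw
        · exact Or.inl hw
        · exact Or.inr (Or.inl hw)
        · exact Or.inr (Or.inr (Finset.mem_erase.2 ⟨hwq, hw⟩))
    obtain ⟨w1, hw1, hmin⟩ := T.exists_min_image (lv x) h0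
    obtain ⟨w2, hw2, hmax⟩ := T.exists_max_image (lv x) h0
    obtain ⟨g1, g2, g3⟩ := Finset.mem_filter.1 hw1
    obtain ⟨g4, g5, g6⟩ := Finset.mem_filter.1 hw2
    rw [mem_An] at g1 g4
    have hle := hmin w2 hw2
    set l1 := lv x w1 with hl1
    set l2 := lv x w2 with hl2
    have i1 : Isl m x r l1 D := by
      refine ⟨P.erase q, hcard, fun v hv h3 h4 => ?_⟩
      obtain ⟨w, hw, h5⟩ := hI v hv h3 (h4.trans g1.2)
      by_cases hwq : w = q
      · rw [hwq] at h5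
        have := hmin v (Finset.mem_filter.2 ⟨mem_An.2 ⟨h3, h4.trans g1.2⟩, hv, h5⟩)
        obtain ⟨w', h6, h7⟩ := step_out x v
        exact ⟨w', Or.inr (Or.inl (by omega)), Oc.one (fun hw => absurd hw hv)
          (fun _ => Or.inr (by omega)) h7⟩
      · refine ⟨w, ?_, h5.mono (Cf_mono le_rfl g1.2 Finset.Subset.rfl)⟩
        rcases hw with hw | hw | hw
        · exact Or.inl hw
        · exact Or.inr (Or.inl (by omega))
        · exact Or.inr (Or.inr (Finset.mem_erase.2 ⟨hwq, hw⟩))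
    have i2 : Isl m x l1 l2 D := by
      refine ⟨P.erase q, hcard, fun v hv h3 h4 => ?_⟩
      obtain ⟨w, hw, h5⟩ := hI v hv (by omega) (h4.trans g4.2)
      have hsub : F ⊆ Cf x l1 l2 D := Cf_mono g1.1.le g4.2 Finset.Subset.rfl
      by_cases hwq : w = q
      · rw [hwq] at h5
        exact ⟨w1, Or.inl le_rfl, (h5.trans g3.symm).mono hsub⟩
      · refine ⟨w, ?_, h5.mono hsub⟩
        rcases hw with hw | hw | hw
        · exact Or.inl (by omega)
        · exact Or.inr (Or.inl (by omega))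
        · exact Or.inr (Or.inr (Finset.mem_erase.2 ⟨hwq, hw⟩))
    have i3 : Isl m x l2 R D := by
      refine ⟨P.erase q, hcard, fun v hv h3 h4 => ?_⟩
      obtain ⟨w, hw, h5⟩ := hI v hv (by omega) h4
      by_cases hwq : w = q
      · rw [hwq] at h5
        have := hmax v (Finset.mem_filter.2 ⟨mem_An.2 ⟨by omega, h4⟩, hv, h5⟩)
        omega
      · refine ⟨w, ?_, h5.mono (Cf_mono g4.1.le le_rfl Finset.Subset.rfl)⟩
        rcases hw with hw | hw | hw
        · exact Or.inl (by omega)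
        · exact Or.inr (Or.inl hw)
        · exact Or.inr (Or.inr (Finset.mem_erase.2 ⟨hwq, hw⟩))
    have q1 := ih x r l1 hr g1.1.le D i1
    have q2 := ih x l1 l2 (by omega) hle D i2
    have q3 := ih x l2 R (by omega) g4.2 D i3
    have h := Xr_three (D := D) (x := x) hQ g1.1.le hle g4.2
      (mul_nonneg (by linarith) (hpow hr g1.1.le)) (mul_nonneg (by linarith) (hpow (by omega) hle))
      q1 q2 q3 hζ
    refine h.trans (le_of_eq ?_)
    rw [← htel hr g1.1.le hle g4.2]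
    ring

/-- One arm in a domain with at most `m` islands, any larger domain. -/
theorem ut_islD {Q : ℝ} (K : Kit Q) (hU : UTc Q) : ∃ α : ℝ, 0 < α ∧ ∀ m : ℕ, ∃ C : ℝ, 0 < C ∧
    ∀ (x : ℤ × ℤ) (r R : ℤ), 1 ≤ r → r ≤ R → ∀ (D : Finset (ℤ × ℤ)) (η : Cfg), Good η →
      Isl m x r R D → Pr Q D η (Xr x r R (D ∩ An x r R)) ≤ C * ((r : ℝ) / R) ^ α := by
  obtain ⟨α, hα, h⟩ := ut_isl K hU
  refine ⟨α, hα, fun m => ?_⟩
  obtain ⟨C, hC, h⟩ := h m
  exact ⟨C, by linarith, fun x r R hr hrR D η hη hI =>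
    Xr_le K.pos Finset.inter_subset_left (h x r R hr hrR D hI) hη⟩

end Vale.Agent.P167.N.QC
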