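import Vale.Agent.P167.N.QC.Oc
import Vale.Agent.P167.QC.Lat
import Vale.Agent.P167.QG.Arg3

/-!
# P167, `0 < q < 1`: the frozen squares of a lattice polygon form no island
-/

set_option autoImplicit false

namespace Vale.Agent.P167.N.QC

open Finset Relation Vale.Agent.P167 Vale.Agent.P167.FK Vale.Agent.P167.FKA
open Vale.Agent.P145.FB (PStep PConn)
open Vale.Agent.P167.H166 (cl bxx mem_bxx mem_Bq)
open Vale.Agent.P167.H192.TA (Pw)
open Vale.Agent.P167.E6 (IsPolygon Encloses dir face edges)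
open Vale.Agent.P167.E2 (mem_edges ro ro_spec ro_unique fin4_1)
open Vale.Agent.P167.H531 (fo' fi_mem)
open Vale.Agent.P167.H718 (Dq etaQ wE mem_Dq' mem_wE)
open Vale.Agent.P167.QC (exists_form fin4_back odd_corner)
open Vale.Agent.P167.H161 (face_key)

variable {n : ℕ} {p : ZMod n → ℤ × ℤ} {S : Finset (ℤ × ℤ)} {k : ℕ}

/-- The squares of the edges off the domain. -/
def Gs (S : Finset (ℤ × ℤ)) : Set (ℤ × ℤ) := {w | H192.ed w ∉ edges S}

theorem gs_eq : (op (H192.cfg (↑(edges S) : Set (Sym2 (ℤ × ℤ)))))ᶜ = Gs S := by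
  ext w
  simp only [op, Gs, Set.mem_compl_iff, Set.mem_ofPred_eq, H192.cfg_true, Finset.mem_coe]

theorem face_step {a b : ℤ} (h1 : ((a, b) : ℤ × ℤ) ∉ S) (h2 : ((a + 1, b) : ℤ × ℤ) ∉ S) :
    PStep (Gs S) (H192.rf (a, b)) (H192.rf (a + 1, b)) := by
  have e3 : face (a + 1, b) 1 = (a, b) := by
    show (a + 1 + -1, b + 0) = _
    ext <;> simp
  have e4 : face (a + 1, b) (1 - 1) = (a + 1, b) := by
    show (a + 1 + 0, b + 0) = _
    ext <;> simp
  have h : s(((a + 1, b) : ℤ × ℤ), (a + 1, b) + dir 1) ∉ edges S := by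
    rw [mem_edges, e3, e4, not_or]
    exact ⟨h1, h2⟩
  have h3 := (QG.dc_face (S := S) (O := ↑(edges S)) subset_rfl h).symm
  rw [e3, e4, gs_eq] at h3
  exact h3

/-- Every exterior face is joined to infinity by the squares off the domain. -/
theorem far_out (hp : IsPolygon p) (hS : Encloses p S) {f : ℤ × ℤ} (hf : f ∉ S) (N : ℤ) :
    ∃ f', Pw (Gs S) (H192.rf f) (H192.rf f') ∧ N ≤ f'.1 := by
  have hn : 2 < n := hp.1
  have _ : NeZero n := ⟨by omega⟩
  obtain ⟨g, hg, hmax⟩ := S.exists_max_image (fun f => f.1) ⟨_, fi_mem hp hS 0⟩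
  have key : ∀ j : ℕ, ∀ f : ℤ × ℤ, f ∉ S → g.1 + 1 - f.1 ≤ j →
      ∃ f', Pw (Gs S) (H192.rf f) (H192.rf f') ∧ N ≤ f'.1 := by
    intro j
    induction j with
    | zero =>
      rintro ⟨a, b⟩ hf hj
      have hout : ∀ c : ℤ, a ≤ c → ((c, b) : ℤ × ℤ) ∉ S := fun c hc h => by
        have := hmax _ h
        simp only at this hj
        push_cast at hj
        omega
      have step : ∀ k : ℕ, Pw (Gs S) (H192.rf (a, b)) (H192.rf (a + k, b)) := by
        intro k
        induction k with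
        | zero => simp only [Nat.cast_zero, add_zero]; exact ReflTransGen.refl
        | succ k ih =>
          refine ih.tail ?_
          have := face_step (S := S) (hout (a + k) (by omega)) (hout (a + k + 1) (by omega))
          push_cast
          rw [← add_assoc]
          exact this
      refine ⟨_, step (N - a).toNat, ?_⟩
      simp only
      have := Int.self_le_toNat (N - a)
      omega
    | succ j ih =>
      rintro ⟨a, b⟩ hf hj
      by_cases h1 : ((a + 1, b) : ℤ × ℤ) ∈ S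
      · have e1 : face (a + 1, b + 1) 3 = (a + 1, b) := by
          show (a + 1 + 0, b + 1 + -1) = _
          ext <;> simp
        have e2 : face (a + 1, b + 1) (3 - 1) = (a, b) := by
          show (a + 1 + -1, b + 1 + -1) = _
          ext <;> simp
        obtain ⟨i, hi1, hi2⟩ := (hS (a + 1, b + 1) 3).2
          ⟨by rw [e1]; exact h1, by rw [e2]; exact hf⟩
        have hro : (3 : Fin 4) = ro p i := ro_unique hp (by rw [hi2, hi1])
        have hfo : fo' p i = (a, b) := by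
          unfold fo'
          rw [← hro, hi1, e2]
        obtain ⟨f', h2, h3⟩ := QG.dc_far hp hS (O := ↑(edges S)) subset_rfl i N
        rw [hfo] at h2
        unfold DC at h2
        rw [gs_eq] at h2
        exact ⟨f', h2, h3⟩
      · obtain ⟨f', h2, h3⟩ := ih (a + 1, b) h1 (by simp only at hj ⊢; push_cast at hj; omega)
        exact ⟨f', (ReflTransGen.single (face_step hf h1)).trans h2, h3⟩
  exact key (g.1 + 1 - f.1).toNat f hf (Int.self_le_toNat _)

theorem cor_face (u : ℤ × ℤ) (r : Fin 4) :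
    Cor (H192.sq s(u, u + dir (r + 1))) (H192.rf (face u r)) ∧
      Cor (H192.sq s(u, u + dir (r + 1))) (H192.rf (face u (r + 1))) := by
  obtain ⟨⟨h1, h2⟩, h3⟩ := face_key u r
  rw [← h3]
  simp only [Cor]
  omega

theorem rf_odd (f : ℤ × ℤ) : ((H192.rf f).1 + (H192.rf f).2) % 2 = 1 := by
  simp only [H192.rf]
  omega

/-- A square off the domain has an exterior face. -/
theorem out_face (hp : IsPolygon p) (hS : Encloses p S) {v : ℤ × ℤ} (hv : v ∉ Dq S p k) :
    ∃ f, f ∉ S ∧ Cor v (H192.rf f) := by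
  rw [mem_Dq', not_and_or, not_not] at hv
  rcases hv with hv | hv
  · obtain ⟨u, r, hu⟩ := exists_form v
    have hvs : v = H192.sq s(u, u + dir (r + 1)) := by rw [← hu, H192.sq_ed]
    rw [hu, mem_edges, fin4_back, not_or] at hv
    refine ⟨face u r, hv.2, ?_⟩
    rw [hvs]
    exact (cor_face u r).1
  · obtain ⟨i, h1, h2, h3⟩ := mem_wE.1 hv
    obtain ⟨d, hd⟩ := hp.2.2 (i : ZMod n)
    have h4 := (hS (p i) d).1 ⟨_, rfl, hd⟩
    refine ⟨face (p i) (d - 1), h4.2, ?_⟩
    have hvs : v = H192.sq s(p i, p i + dir (d - 1 + 1)) := by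
      rw [fin4_1, ← hd, ← h3, H192.sq_ed]
    rw [hvs]
    exact (cor_face _ _).1

/-- A chain of frozen squares along a path of closed squares. -/
theorem chain_odd {D : Finset (ℤ × ℤ)} {η : Cfg} {G : Set (ℤ × ℤ)}
    (hG : ∀ w ∈ G, w ∉ D ∧ η w = false) {v s t : ℤ × ℤ} (hv : v ∉ D) (hs : (s.1 + s.2) % 2 = 1)
    (hc : Cor v s) (h : Pw G s t) : ∃ w, w ∉ D ∧ Wc D η v w ∧ Cor w t := by
  induction h with
  | refl => exact ⟨v, hv, ReflTransGen.refl, hc⟩
  | @tail t t' h1 h2 ih =>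
    obtain ⟨w, h3, h4, h5⟩ := ih
    obtain ⟨c1, c2⟩ := cor_of_step h2
    obtain ⟨g1, g2⟩ := hG _ h2.2.2
    have ht := Pw.parity h1
    exact ⟨_, g1, h4.tail ⟨h3, g1, t, h5, c1, Or.inl ⟨by omega, Or.inr g2⟩⟩, c2⟩

theorem far_lv {x w f : ℤ × ℤ} {R : ℤ} (hf : R + |x.1 + x.2| + 1 ≤ f.1)
    (hc : Cor w (H192.rf f)) : R ≤ lv x w := by
  simp only [lv, nm, Prod.fst_sub, Prod.snd_sub, le_max_iff, le_abs]
  simp only [Cor, H192.rf] at hc
  have h1 := le_abs_self (x.1 + x.2)
  have h2 := neg_abs_le (x.1 + x.2)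
  omega

theorem etaQ_tr {v : ℤ × ℤ} : etaQ p k v = true ↔ H192.ed v ∈ wE p k := by
  unfold etaQ
  rw [H192.cfg_true, Finset.mem_coe]

/-- **The frozen squares of a lattice polygon form no island.** -/
theorem fz_poly (hp : IsPolygon p) (hS : Encloses p S) (x : ℤ × ℤ) (R : ℤ) :
    Fz 0 x R (Dq S p k) (etaQ p k) := by
  refine ⟨∅, le_rfl, fun v hv _ => ?_⟩
  obtain ⟨f, hf, hc⟩ := out_face hp hS hv
  obtain ⟨f', h1, h2⟩ := far_out hp hS hf (R + |x.1 + x.2| + 1)
  obtain ⟨w, -, h3, h4⟩ := chain_odd (D := Dq S p k) (η := etaQ p k) (G := Gs S) (fun w hw => by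
    refine ⟨fun h => hw (mem_Dq'.1 h).1, ?_⟩
    by_contra h
    rw [Bool.not_eq_false] at h
    exact hw (H718.wE_sub hp hS (etaQ_tr.1 h))) hv (rf_odd f) hc h1
  exact ⟨w, Or.inl (far_lv h2 h4), h3⟩

/-- **The frozen squares of a lattice polygon form no island.** -/
theorem fz_dq (hp : IsPolygon p) (hS : Encloses p S) (_ : 0 < k) (_ : k < n) (x : ℤ × ℤ) (R : ℤ) :
    Fz 0 x R (Dq S p k) (etaQ p k) := fz_poly hp hS x R

end Vale.Agent.P167.N.QC
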