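import Vale.Agent.P167.N.KitQ
import Vale.Agent.P167.H722.CrWF

/-!
# P167, `0 < q < 1`: the crossing numbers of the interfaces are tight
-/

set_option autoImplicit false

namespace Vale.Agent.P167.N.QC

open Vale.Agent.P167.QE (wq I_crossW)

/-- **The crossing numbers are tight**, `0 < q < 1`. -/
theorem crossW {q : ℝ} (hq1 : Kit (√q)) (_ : q ≤ 4) : I_crossW (wq q) :=
  H722.crossW_lt hq1.q_pos hq1.q_lt

end Vale.Agent.P167.N.QC
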