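import Vale.Agent.P167.N.KitQ
import Vale.Agent.P167.N.QC.Sep
import Vale.Agent.P167.N.QC.Ut
import Vale.Agent.P167.N.QC.FzDq
import Vale.Agent.P167.QC.Lat

/-!
# P167, `0 < q < 1`: the number of the fresh crossing clusters of a polygon domain
-/

set_option autoImplicit false

namespace Vale.Agent.P167.N.QC

open Vale.Agent.P167.QC

open Vale.Agent.P167.E6 Vale.Agent.P167.E2

open Vale.Agent.P167.H166 Vale.Agent.P167.H161

open Vale.Agent.P167.FK (Good RSW Pr Ex)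

open Vale.Agent.P167.H718 (Dq wE etaQ mem_Dq' mem_wE mem_wiredOpen good_etaQ)

open Classical in
/-- **Master lemma for polygon domains.** The number of the fresh crossing clusters of each colour
has a geometric tail, whose ratio is small if the annulus is thick. -/
theorem fresh_dq {Q : ℝ} (hQ : Kit Q) : ∃ α C : ℝ, 0 < α ∧ 0 < C ∧
    ∀ (n : ℕ) (p : ZMod n → ℤ × ℤ) (S : Finset (ℤ × ℤ)) (k : ℕ),
    IsPolygon p → Encloses p S → 0 < k → k < n →
    ∀ (x : ℤ × ℤ) (r R : ℤ), 1 ≤ r → r + 2 < R → C * ((r : ℝ) / R) ^ α ≤ 1 → ∀ j : ℕ,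
      Pr Q (Dq S p k) (etaQ p k) {ω | j ≤ kf x r R (Dq S p k ∩ bxx x R) ω true 0} ≤
        2 * (C * ((r : ℝ) / R) ^ α) ^ j ∧
      Pr Q (Dq S p k) (etaQ p k) {ω | j ≤ kf x r R (Dq S p k ∩ bxx x R) ω false 1} ≤
        2 * (C * ((r : ℝ) / R) ^ α) ^ j := by
  obtain ⟨α, hα, h⟩ := fresh_tail hQ (ut hQ)
  obtain ⟨C, hC, h⟩ := h 0
  exact ⟨α, C, hα, hC, fun n p S k hp hS h0 hk x r R hr hrR hsm j =>
    h x r R hr hrR hsm (Dq S p k) (etaQ p k) good_etaQ (fz_dq hp hS h0 hk x R) j⟩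

end Vale.Agent.P167.N.QC
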