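import Vale.Agent.P167.N.Base.Kit0
import Vale.Agent.P167.N.QC.CrossW
import Vale.Agent.P167.N.QC.FinW

/-!
# P167, `0 < q < 1`: tightness of the crossing numbers, no return from the end
-/

set_option autoImplicit false

namespace Vale.Agent.P167.N.QC

open Vale.Agent.P167.QE (wq I_crossW I_finW)

/-- `√q` is in the range. -/
theorem kit_sqrt {q : ℝ} (h0 : 0 < q) (h1 : q < 1) : Kit (√q) :=
  kit (Real.sqrt_pos.2 h0) (by rw [Real.sqrt_lt' one_pos]; simpa using h1)

/-- **The crossing numbers are tight**, `0 < q < 1`. -/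
theorem crossW_lt {q : ℝ} (h0 : 0 < q) (h1 : q < 1) : I_crossW (wq q) :=
  crossW (kit_sqrt h0 h1) (by linarith)

/-- **No return from `b`**, `0 < q < 1`. -/
theorem finW_lt {q : ℝ} (h0 : 0 < q) (h1 : q < 1) : I_finW (wq q) :=
  finW (kit_sqrt h0 h1) (by linarith)

end Vale.Agent.P167.N.QC
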