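import Vale.Agent.P167.QC.Sep
import Vale.Agent.P167.H192.TA.Geo

/-!
# P167, `0 < q < 1`: domains without islands

`Oa`: two squares with a common odd corner; `Oc F`: squares joined inside `F` through odd corners.
`Isl m x r R D`: every square of the annulus off `D` is joined off `D ∩ annulus` to the inner box, to
the outside or to one of `m` squares.
-/

set_option autoImplicit false

namespace Vale.Agent.P167.N.QC

open Finset Relation Vale.Agent.P167 Vale.Agent.P167.FK Vale.Agent.P167.FKA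
open Vale.Agent.P145.FB (PStep PConn)
open Vale.Agent.P167.H166 (cl bxx mem_bxx)
open Vale.Agent.P167.H192.TA (Pw)
open Vale.Agent.P167.QC (KF)

/-- Two squares with a common odd corner. -/
def Oa (a b : ℤ × ℤ) : Prop := ∃ u : ℤ × ℤ, (u.1 + u.2) % 2 = 1 ∧ Cor a u ∧ Cor b u

/-- Squares joined inside `F` through odd corners. -/
def Oc (F : Set (ℤ × ℤ)) : ℤ × ℤ → ℤ × ℤ → Prop :=
  ReflTransGen fun a b => a ∈ F ∧ b ∈ F ∧ Oa a b

theorem Oa.symm {a b : ℤ × ℤ} (h : Oa a b) : Oa b a := by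
  obtain ⟨u, h1, h2, h3⟩ := h
  exact ⟨u, h1, h3, h2⟩

variable {F F' : Set (ℤ × ℤ)} {a b c : ℤ × ℤ}

theorem Oc.refl : Oc F a a := ReflTransGen.refl

theorem Oc.one (ha : a ∈ F) (hb : b ∈ F) (h : Oa a b) : Oc F a b :=
  ReflTransGen.single ⟨ha, hb, h⟩

theorem Oc.symm (h : Oc F a b) : Oc F b a := by
  induction h with
  | refl => exact ReflTransGen.refl
  | tail _ h ih => exact (ReflTransGen.single ⟨h.2.1, h.1, h.2.2.symm⟩).trans ih

theorem Oc.trans (h : Oc F a b) (h' : Oc F b c) : Oc F a c := ReflTransGen.trans h h'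

theorem Oc.mono (hF : F ⊆ F') (h : Oc F a b) : Oc F' a b := by
  induction h with
  | refl => exact ReflTransGen.refl
  | tail _ h ih => exact ih.tail ⟨hF h.1, hF h.2.1, h.2.2⟩

theorem oa_h (p q : ℤ) : Oa (p, q) (p + 1, q) := by
  rcases Int.emod_two_eq_zero_or_one (p + 1 + q) with h | h
  · exact ⟨(p + 1, q + 1), by simp only; omega, by simp [Cor], by simp [Cor]⟩
  · exact ⟨(p + 1, q), by simp only; omega, by simp [Cor], by simp [Cor]⟩

theorem oa_v (p q : ℤ) : Oa (p, q) (p, q + 1) := by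
  rcases Int.emod_two_eq_zero_or_one (p + q + 1) with h | h
  · exact ⟨(p + 1, q + 1), by simp only; omega, by simp [Cor], by simp [Cor]⟩
  · exact ⟨(p, q + 1), by simp only; omega, by simp [Cor], by simp [Cor]⟩

theorem line_h {q : ℤ} {p p' : ℤ} (hp : p ≤ p') (h : ∀ z, p ≤ z → z ≤ p' → (z, q) ∈ F) :
    Oc F (p, q) (p', q) := by
  induction p', hp using Int.leInduction with
  | base => exact Oc.refl
  | succ n hn ih =>
    exact (ih fun z h1 h2 => h z h1 (by omega)).trans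
      (Oc.one (h _ hn (by omega)) (h _ (by omega) le_rfl) (oa_h _ _))

theorem line_v {p : ℤ} {q q' : ℤ} (hq : q ≤ q') (h : ∀ z, q ≤ z → z ≤ q' → (p, z) ∈ F) :
    Oc F (p, q) (p, q') := by
  induction q', hq using Int.leInduction with
  | base => exact Oc.refl
  | succ n hn ih =>
    exact (ih fun z h1 h2 => h z h1 (by omega)).trans
      (Oc.one (h _ hn (by omega)) (h _ (by omega) le_rfl) (oa_v _ _))

theorem line_h' {q : ℤ} (p p' : ℤ) (h : ∀ z, min p p' ≤ z → z ≤ max p p' → (z, q) ∈ F) :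
    Oc F (p, q) (p', q) := by
  rcases le_total p p' with h1 | h1
  · exact line_h h1 fun z h2 h3 => h z (by omega) (by omega)
  · exact (line_h h1 fun z h2 h3 => h z (by omega) (by omega)).symm

theorem line_v' {p : ℤ} (q q' : ℤ) (h : ∀ z, min q q' ≤ z → z ≤ max q q' → (p, z) ∈ F) :
    Oc F (p, q) (p, q') := by
  rcases le_total q q' with h1 | h1
  · exact line_v h1 fun z h2 h3 => h z (by omega) (by omega)
  · exact (line_v h1 fun z h2 h3 => h z (by omega) (by omega)).symm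

/-- Level of a square. -/
abbrev lv (x v : ℤ × ℤ) : ℤ := nm (v - x)

theorem lv_le {x v : ℤ × ℤ} {r : ℤ} : lv x v ≤ r ↔ |v.1 - x.1| ≤ r ∧ |v.2 - x.2| ≤ r := by
  simp only [lv, nm, Prod.fst_sub, Prod.snd_sub, max_le_iff]

theorem lt_lv {x v : ℤ × ℤ} {r : ℤ} : r < lv x v ↔ r < |v.1 - x.1| ∨ r < |v.2 - x.2| := by
  simp only [lv, nm, Prod.fst_sub, Prod.snd_sub, lt_max_iff]

theorem lv_nonneg (x v : ℤ × ℤ) : 0 ≤ lv x v := le_trans (abs_nonneg _) (le_max_left _ _)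

/-- The inner box is connected. -/
theorem box_conn {x : ℤ × ℤ} {r : ℤ} {u v : ℤ × ℤ} (hu : lv x u ≤ r) (hv : lv x v ≤ r) :
    Oc {w | lv x w ≤ r} u v := by
  have key : ∀ u : ℤ × ℤ, lv x u ≤ r → Oc {w | lv x w ≤ r} u x := by
    intro u hu
    obtain ⟨h1, h2⟩ := lv_le.1 hu
    have a1 : Oc {w | lv x w ≤ r} (u.1, u.2) (x.1, u.2) :=
      line_h' _ _ fun z h3 h4 => lv_le.2 ⟨by simp only [abs_le] at *; omega, h2⟩
    have a2 : Oc {w | lv x w ≤ r} (x.1, u.2) (x.1, x.2) :=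
      line_v' _ _ fun z h3 h4 => lv_le.2 ⟨by simp only [abs_le] at *; omega,
        by simp only [abs_le] at *; omega⟩
    exact a1.trans a2
  exact (key u hu).trans (key v hv).symm

/-- The outside is connected. -/
theorem out_conn {x : ℤ × ℤ} {R : ℤ} {u v : ℤ × ℤ} (hu : R < lv x u)
    (hv : R < lv x v) : Oc {w | R < lv x w} u v := by
  have key : ∀ u : ℤ × ℤ, R < lv x u → Oc {w | R < lv x w} u (x.1 + (R + 1), x.2 + (R + 1)) := by
    intro u hu
    rcases lt_lv.1 hu with h1 | h1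
    · have a1 : Oc {w | R < lv x w} (u.1, u.2) (u.1, x.2 + (R + 1)) :=
        line_v' _ _ fun z h3 h4 => lt_lv.2 (Or.inl h1)
      have a2 : Oc {w | R < lv x w} (u.1, x.2 + (R + 1)) (x.1 + (R + 1), x.2 + (R + 1)) :=
        line_h' _ _ fun z h3 h4 => lt_lv.2 (Or.inr (by rw [lt_abs]; simp only; omega))
      exact a1.trans a2
    · have a1 : Oc {w | R < lv x w} (u.1, u.2) (x.1 + (R + 1), u.2) :=
        line_h' _ _ fun z h3 h4 => lt_lv.2 (Or.inr h1)
      have a2 : Oc {w | R < lv x w} (x.1 + (R + 1), u.2) (x.1 + (R + 1), x.2 + (R + 1)) :=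
        line_v' _ _ fun z h3 h4 => lt_lv.2 (Or.inl (by rw [lt_abs]; simp only; omega))
      exact a1.trans a2
  exact (key u hu).trans (key v hv).symm

/-- A square has a neighbour at the next level. -/
theorem step_out (x v : ℤ × ℤ) : ∃ w, lv x w = lv x v + 1 ∧ Oa v w := by
  rcases le_total |v.2 - x.2| |v.1 - x.1| with h | h
  · rcases le_total 0 (v.1 - x.1) with h1 | h1
    · refine ⟨(v.1 + 1, v.2), ?_, oa_h _ _⟩
      simp only [lv, nm, Prod.fst_sub, Prod.snd_sub]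
      rw [abs_of_nonneg h1] at h ⊢
      rw [abs_of_nonneg (by omega : 0 ≤ v.1 + 1 - x.1)]
      omega
    · refine ⟨(v.1 - 1, v.2), ?_, ?_⟩
      · simp only [lv, nm, Prod.fst_sub, Prod.snd_sub]
        rw [abs_of_nonpos h1] at h ⊢
        rw [abs_of_nonpos (by omega : v.1 - 1 - x.1 ≤ 0)]
        omega
      · have := (oa_h (v.1 - 1) v.2).symm
        simpa using this
  · rcases le_total 0 (v.2 - x.2) with h1 | h1
    · refine ⟨(v.1, v.2 + 1), ?_, oa_v _ _⟩
      simp only [lv, nm, Prod.fst_sub, Prod.snd_sub]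
      rw [abs_of_nonneg h1] at h ⊢
      rw [abs_of_nonneg (by omega : 0 ≤ v.2 + 1 - x.2)]
      omega
    · refine ⟨(v.1, v.2 - 1), ?_, ?_⟩
      · simp only [lv, nm, Prod.fst_sub, Prod.snd_sub]
        rw [abs_of_nonpos h1] at h ⊢
        rw [abs_of_nonpos (by omega : v.2 - 1 - x.2 ≤ 0)]
        omega
      · have := (oa_v v.1 (v.2 - 1)).symm
        simpa using this

theorem lv_cor {x a b u : ℤ × ℤ} (ha : Cor a u) (hb : Cor b u) : lv x b ≤ lv x a + 1 := by
  rw [lv_le]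
  have h := (lv_le (x := x) (v := a) (r := lv x a)).1 le_rfl
  simp only [abs_le, Cor] at *
  omega

/-- The squares around an even site are joined through odd corners. -/
theorem around {u : ℤ × ℤ} (hu : (u.1 + u.2) % 2 = 0) (ha : Cor a u) (hb : Cor b u) :
    Oc {v | Cor v u} a b := by
  have key : ∀ a : ℤ × ℤ, Cor a u → Oc {v | Cor v u} a u := by
    intro a ha
    have hU : ∀ p q : ℤ, (p = u.1 ∨ p = u.1 - 1) → (q = u.2 ∨ q = u.2 - 1) →
        ((p, q) : ℤ × ℤ) ∈ {v : ℤ × ℤ | Cor v u} := by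
      intro p q h1 h2
      simp only [Set.mem_ofPred_eq, Cor]
      omega
    have a1 : Oc {v | Cor v u} (a.1, a.2) (u.1, a.2) :=
      line_h' _ _ fun z h3 h4 => hU _ _ (by simp only [Cor] at ha; omega)
        (by simp only [Cor] at ha; omega)
    have a2 : Oc {v | Cor v u} (u.1, a.2) (u.1, u.2) :=
      line_v' _ _ fun z h3 h4 => hU _ _ (Or.inl rfl) (by simp only [Cor] at ha; omega)
    exact a1.trans a2
  exact (key a ha).trans (key b hb).symm

/-- The squares around the sites of a path are joined through odd corners. -/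
theorem touch_path {K : Set (ℤ × ℤ)} {G : Set (ℤ × ℤ)} {s t : ℤ × ℤ} (hs : (s.1 + s.2) % 2 = 0)
    (h : Pw G s t) (hK : ∀ u, Pw G s u → u ∈ K) (ha : Cor a s) (hb : Cor b t) :
    Oc {v | ∃ u ∈ K, Cor v u} a b := by
  induction h generalizing b with
  | refl => exact (around hs ha hb).mono fun v hv => ⟨s, hK s ReflTransGen.refl, hv⟩
  | @tail t t' h1 h2 ih =>
    obtain ⟨c1, c2⟩ := FKA.cor_of_step h2
    have ht : (t'.1 + t'.2) % 2 = 0 := by
      have := Pw.parity (h1.tail h2)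
      omega
    exact (ih c1).trans ((around ht c2 hb).mono fun v hv => ⟨t', hK t' (h1.tail h2), hv⟩)

/-- The squares of the levels `(r, R]`. -/
noncomputable def An (x : ℤ × ℤ) (r R : ℤ) : Finset (ℤ × ℤ) := bxx x R \ bxx x r

theorem mem_An {x v : ℤ × ℤ} {r R : ℤ} : v ∈ An x r R ↔ r < lv x v ∧ lv x v ≤ R := by
  rw [An, Finset.mem_sdiff, mem_bxx, mem_bxx]
  constructor
  · rintro ⟨h1, h2⟩; exact ⟨not_le.1 h2, h1⟩
  · rintro ⟨h1, h2⟩; exact ⟨h2, not_le.2 h1⟩

/-- The complement of the part of `D` in the annulus. -/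
def Cf (x : ℤ × ℤ) (r R : ℤ) (D : Finset (ℤ × ℤ)) : Set (ℤ × ℤ) :=
  {v | v ∈ D → lv x v ≤ r ∨ R < lv x v}

theorem Cf_mono {x : ℤ × ℤ} {r r' R R' : ℤ} {D D' : Finset (ℤ × ℤ)} (hr : r ≤ r') (hR : R' ≤ R)
    (hD : D' ⊆ D) : Cf x r R D ⊆ Cf x r' R' D' := by
  intro v hv hvD
  rcases hv (hD hvD) with h | h
  · exact Or.inl (h.trans hr)
  · exact Or.inr (hR.trans_lt h)

theorem Cf_compl {x : ℤ × ℤ} {r R : ℤ} {D : Finset (ℤ × ℤ)} :
    Cf x r R D = (↑(D ∩ An x r R) : Set (ℤ × ℤ))ᶜ := by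
  ext v
  simp only [Cf, Set.mem_ofPred_eq, Set.mem_compl_iff, Finset.coe_inter, Set.mem_inter_iff,
    Finset.mem_coe, mem_An, not_and, not_le]
  constructor
  · intro h h1 h2
    rcases h h1 with h3 | h3
    · omega
    · exact h3
  · intro h h1
    by_cases h2 : r < lv x v
    · exact Or.inr (h h1 h2)
    · exact Or.inl (by omega)

/-- Every square of the annulus off `D` is joined off the part of `D` in the annulus to the inner
box, to the outside or to one of `m` squares. -/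
def Isl (m : ℕ) (x : ℤ × ℤ) (r R : ℤ) (D : Finset (ℤ × ℤ)) : Prop :=
  ∃ P : Finset (ℤ × ℤ), P.card ≤ m ∧ ∀ v, v ∉ D → r < lv x v → lv x v ≤ R →
    ∃ w, (lv x w ≤ r ∨ R < lv x w ∨ w ∈ P) ∧ Oc (Cf x r R D) v w

theorem Isl.mono {m m' : ℕ} {x : ℤ × ℤ} {r R : ℤ} {D : Finset (ℤ × ℤ)} (h : Isl m x r R D)
    (hm : m ≤ m') : Isl m' x r R D := by
  obtain ⟨P, hP, h⟩ := h
  exact ⟨P, hP.trans hm, h⟩

/-- The exploration of the cluster of a site of the inner box makes no new island. -/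
theorem isl_rest {m : ℕ} {x : ℤ × ℤ} {r R : ℤ} {D : Finset (ℤ × ℤ)} (h : Isl m x r R D) (ω : Cfg)
    {s : ℤ × ℤ} (hs : Even (s.1 + s.2)) (hsr : nm (s - x) ≤ r) :
    Isl m x r R (rest D (cl (Op D ω) s)) := by
  obtain ⟨P, hP, h⟩ := h
  refine ⟨P, hP, fun v hv h1 h2 => ?_⟩
  have hsub : rest D (cl (Op D ω) s) ⊆ D := fun v hv => (mem_rest.1 hv).1
  have hCf := Cf_mono (x := x) (le_refl r) (le_refl R) hsub
  by_cases hvD : v ∈ D
  · rw [mem_rest] at hv
    push Not at hv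
    obtain ⟨u, hu, hc⟩ := hv hvD
    refine ⟨s, Or.inl hsr, ?_⟩
    have h3 : Oc {v | ∃ u ∈ cl (Op D ω) s, Cor v u} s v :=
      touch_path (K := cl (Op D ω) s) (Int.even_iff.1 hs) hu (fun u hu => hu)
        ⟨Or.inl rfl, Or.inl rfl⟩ hc
    refine h3.symm.mono ?_
    rintro w ⟨u, hu, hc⟩ hw
    exact absurd hc ((mem_rest.1 hw).2 u hu)
  · obtain ⟨w, hw, h3⟩ := h v hvD h1 h2
    exact ⟨w, hw, h3.mono hCf⟩

/-- Weak adjacency of frozen squares: a common odd corner and one of the two is closed, or a common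
even corner and one of the two is open. -/
def Wa (η : Cfg) (a b : ℤ × ℤ) : Prop := ∃ u : ℤ × ℤ, Cor a u ∧ Cor b u ∧
  (((u.1 + u.2) % 2 = 1 ∧ (η a = false ∨ η b = false)) ∨
    ((u.1 + u.2) % 2 = 0 ∧ (η a = true ∨ η b = true)))

/-- Chains of frozen squares. -/
def Wc (D : Finset (ℤ × ℤ)) (η : Cfg) : ℤ × ℤ → ℤ × ℤ → Prop :=
  ReflTransGen fun a b => a ∉ D ∧ b ∉ D ∧ Wa η a b

/-- The frozen squares of the box form at most `m` islands. -/
def Fz (m : ℕ) (x : ℤ × ℤ) (R : ℤ) (D : Finset (ℤ × ℤ)) (η : Cfg) : Prop :=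
  ∃ P : Finset (ℤ × ℤ), P.card ≤ m ∧ ∀ v, v ∉ D → lv x v ≤ R →
    ∃ w, (R ≤ lv x w ∨ w ∈ P) ∧ Wc D η v w

theorem Fz.mono {m m' : ℕ} {x : ℤ × ℤ} {R : ℤ} {D : Finset (ℤ × ℤ)} {η : Cfg}
    (h : Fz m x R D η) (hm : m ≤ m') : Fz m' x R D η := by
  obtain ⟨P, hP, h⟩ := h
  exact ⟨P, hP.trans hm, h⟩

/-- After the exploration of the clusters which touch frozen open squares there are at most `m`
islands. -/
theorem isl_KF {m : ℕ} {x : ℤ × ℤ} {r R : ℤ} {D : Finset (ℤ × ℤ)} {η ω : Cfg}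
    (h : Fz m x R D η) (hω : ∀ v, v ∉ D → ω v = η v) :
    Isl m x r R (rest D (KF (bxx x R) D ω true 0)) := by
  obtain ⟨P, hP, h⟩ := h
  set K := KF (bxx x R) D ω true 0 with hK
  have hsub : FKA.rest D K ⊆ D := fun v hv => (mem_rest.1 hv).1
  have htouch : {v : ℤ × ℤ | ∃ u ∈ K, Cor v u} ⊆ Cf x r R (FKA.rest D K) := by
    rintro w ⟨u, hu, hc⟩ hw
    exact absurd hc ((mem_rest.1 hw).2 u hu)
  have hoff : ∀ v, v ∉ D → v ∈ Cf x r R (FKA.rest D K) := fun v hv hv' => absurd (hsub hv') hv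
  -- a frozen square
  have key : ∀ v w, Wc D η v w → v ∉ D → (R ≤ lv x w ∨ w ∈ P) → lv x v ≤ R →
      ∃ w', (lv x w' ≤ r ∨ R < lv x w' ∨ w' ∈ P) ∧ Oc (Cf x r R (FKA.rest D K)) v w' := by
    intro v w hvw
    have hend : ∀ v, v ∉ D → R ≤ lv x v → lv x v ≤ R →
        ∃ w', (lv x w' ≤ r ∨ R < lv x w' ∨ w' ∈ P) ∧ Oc (Cf x r R (FKA.rest D K)) v w' := by
      intro v hv h1 h2
      obtain ⟨w', h3, h4⟩ := step_out x v
      exact ⟨w', Or.inr (Or.inl (by omega)), Oc.one (hoff v hv)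
        (fun _ => Or.inr (by omega)) h4⟩
    induction hvw using ReflTransGen.head_induction_on with
    | refl =>
      intro hw h1 h2
      rcases h1 with h1 | h1
      · exact hend _ hw h1 h2
      · exact ⟨w, Or.inr (Or.inr h1), Oc.refl⟩
    | @head a b hab _ ih =>
      intro ha h1 h2
      obtain ⟨-, hb, u, c1, c2, h3⟩ := hab
      by_cases h4 : R ≤ lv x a
      · exact hend _ ha h4 h2
      have h5 : lv x b ≤ R := by
        have := lv_cor (x := x) c1 c2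
        omega
      obtain ⟨w', h6, h7⟩ := ih hb h1 h5
      refine ⟨w', h6, Oc.trans ?_ h7⟩
      rcases h3 with ⟨h3, -⟩ | ⟨h3, h8⟩
      · exact Oc.one (hoff a ha) (hoff b hb) ⟨u, h3, c1, c2⟩
      · have huK : u ∈ K := by
          rcases h8 with h8 | h8
          · exact ⟨u, a, mem_bxx.2 h2, ha, by rw [hω a ha]; exact h8, c1, h3, ReflTransGen.refl⟩
          · exact ⟨u, b, mem_bxx.2 h5, hb, by rw [hω b hb]; exact h8, c2, h3, ReflTransGen.refl⟩
        exact (around h3 c1 c2).mono fun v hv => htouch ⟨u, huK, hv⟩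
  refine ⟨P, hP, fun v hv h1 h2 => ?_⟩
  by_cases hvD : v ∈ D
  · rw [mem_rest] at hv
    push Not at hv
    obtain ⟨t, ht, hc⟩ := hv hvD
    obtain ⟨s, v0, g1, g2, g3, g4, g5, g6⟩ := ht
    have h3 : Oc {v | ∃ u ∈ K, Cor v u} v0 v := touch_path (K := K) (G := QC.Opb D ω true) g5 g6
      (fun u hu => ⟨s, v0, g1, g2, g3, g4, g5, hu⟩) g4 hc
    obtain ⟨w, hw, h4⟩ := h v0 g2 (mem_bxx.1 g1)
    obtain ⟨w', h5, h6⟩ := key v0 w h4 g2 hw (mem_bxx.1 g1)
    exact ⟨w', h5, (h3.symm.mono htouch).trans h6⟩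
  · obtain ⟨w, hw, h3⟩ := h v hvD h2
    exact key v w h3 hvD hw h2

end Vale.Agent.P167.N.QC
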