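import Vale.Agent.P167.N.QC.Dq
import Vale.Agent.P167.QC.RetLat

/-! generated from Vale.Agent.P167.QC.RetLat (q < 1 port) -/

set_option autoImplicit false

namespace Vale.Agent.P167.N.QC

open Vale.Agent.P167.QC

open Vale.Agent.P145.FB (PStep)

open Vale.Agent.P167.E6 Vale.Agent.P167.E2

open Vale.Agent.P167.H166 Vale.Agent.P167.H161

open Vale.Agent.P167.FKA (Cor rest mem_rest Pr_mono Ex_mono Ex_congr Ex_const ind_nonneg)

open Vale.Agent.P167.FK (Good RSW Pr Ex)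

open Vale.Agent.P167.H718 (Dq wE etaQ mem_Dq' mem_wE mem_wiredOpen good_etaQ)

variable {n : ℕ} {p : ZMod n → ℤ × ℤ} {S : Finset (ℤ × ℤ)} {k : ℕ}

open Classical in
/-- **The probability of a return from `b`**, `Kit q ≤ 4`. -/
theorem ret_tail {q : ℝ} (h1 : Kit (√q)) : ∃ α C : ℝ, 0 < α ∧ 0 < C ∧
    ∀ (n : ℕ) (p : ZMod n → ℤ × ℤ) (S : Finset (ℤ × ℤ)) (k : ℕ),
    IsPolygon p → Encloses p S → 0 < k → k < n →
    ∀ (x : ℤ × ℤ) (r R' R : ℤ), 1 ≤ r → r + 2 < R' → R' + 5 ≤ R →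
      (∀ i, k ≤ i → i < n → nm (H192.ro (p i) - x) ≤ R' + 3 → ∀ l, k ≤ l → l ≤ i →
        nm (H192.ro (p l) - x) < R) →
      (∀ i < k, nm (H192.ro (p i) - x) ≤ R' + 3 → ∀ l, i ≤ l → l < k →
        nm (H192.ro (p l) - x) < R) →
      R + 1 < nm (H192.ro (p 0) - x) → nm (H192.ro (p (k : ZMod n)) - x) + 1 ≤ r →
      Final.mean q p k S (fun A => if ∃ t0 t1 : ℕ, t0 ≤ t1 ∧ t1 < len p k A ∧
        nm (hdv (H192.me (run p k A t0)) - x) ≤ r ∧
        R < nm (hdv (H192.me (run p k A t1)) - x) then 1 else 0) ≤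
        C * ((r : ℝ) / R') ^ α := by
  have hQ0 : (0 : ℝ) < √q := h1.pos
  have hq0 : 0 < q := h1.q_pos
  obtain ⟨α, C, hα, hC, h⟩ := fresh_dq h1
  refine ⟨α, 4 * C, hα, by positivity, fun n p S k hp hS h0 hk x r R' R hr hrR hR hw hf ha hb => ?_⟩
  have hr' : (1 : ℝ) ≤ r := by exact_mod_cast hr
  have hR0 : (0 : ℝ) < R' := by
    have : (1 : ℤ) ≤ R' := by omega
    have : (1 : ℝ) ≤ R' := by exact_mod_cast this
    linarith
  have hx0 : 0 ≤ C * ((r : ℝ) / R') ^ α := by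
    have : 0 ≤ (r : ℝ) / R' := div_nonneg (by linarith) hR0.le
    positivity
  rcases le_total (C * ((r : ℝ) / R') ^ α) 1 with hsm | hsm
  · obtain ⟨t1, t2⟩ := h n p S k hp hS h0 hk x r R' hr hrR hsm 1
    rw [pow_one] at t1 t2
    have hle := mean_le_Pr (k := k) hq0 hp hS (fun A => ∃ t0 t1 : ℕ, t0 ≤ t1 ∧ t1 < len p k A ∧
        nm (hdv (H192.me (run p k A t0)) - x) ≤ r ∧
        R < nm (hdv (H192.me (run p k A t1)) - x))
      ({ω | 1 ≤ kf x r R' (Dq S p k ∩ bxx x R') ω true 0} ∪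
        {ω | 1 ≤ kf x r R' (Dq S p k ∩ bxx x R') ω false 1}) fun A hA hE => ?_
    · refine hle.trans ((FKA.Pr_union_le hQ0 _ _).trans ?_)
      linarith
    · obtain ⟨s0, s1, g1, g2, g3, g4⟩ := hE
      have h5 := ret_lat hp hS h0 hk (by omega) hR hw hf ha hb hA g1 g2 g3 g4
      by_cases h7 : 1 ≤ kf x r R' (Dq S p k ∩ bxx x R') (om p k A) true 0
      · exact Or.inl h7
      · refine Or.inr ?_
        show 1 ≤ kf x r R' (Dq S p k ∩ bxx x R') (om p k A) false 1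
        omega
  · refine (mean_le_Pr (k := k) hq0 hp hS _ Set.univ fun _ _ _ => Set.mem_univ _).trans ?_
    refine (FKA.Pr_le_one hQ0 _).trans ?_
    linarith

end Vale.Agent.P167.N.QC
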